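import Vale.Agent.N153.Defs

/-!
The joint scaling limit of the uniform odd heights and their interface: the definitions. The
lattice domains, the heights, the field `h_δ(φ)`, the interface, chordal SLE in the half-plane, the
marked boundary curves, the Green function and the Gaussian free field are those of the imported
files.
-/

set_option autoImplicit false

namespace Vale.Agent.N153J

open MeasureTheory ProbabilityTheory Filter Topology Set TopologicalSpace
open Vale.Agent.P153.H212 (Heights arcs law fld IsInterface IsSLE V)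
open Vale.Agent.P153E (Marked Approximates IsGreen IsField InLaw)
open Vale.Agent.N153 (Param IsMean)

/-- The points of the upper half-plane which can be joined to the real point `x` by a path in the
closed half-plane which does not meet the curve `γ [0, ∞)`. -/
def side (γ : ℝ → ℂ) (x : ℝ) : Set ℂ :=
  {z | 0 < z.im ∧ JoinedIn ({w : ℂ | 0 ≤ w.im} \ γ '' Ici 0) z x}

/-- `Q` is the law on `𝓓'(D)` of the Gaussian field with the mean `1` on `Lp`, `-1` on `Lm` and the
covariance `(8/π) (-Δ_W)⁻¹`, `W = Lp ∪ Lm`, with zero boundary values on `∂W`. -/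
def IsCond {D : Opens ℂ} [MeasurableSpace (Distribution D ℝ ⊤)] (Lp Lm : Set ℂ)
    (Q : Measure (Distribution D ℝ ⊤)) : Prop :=
  IsProbabilityMeasure Q ∧ ∀ f : TestFunction D ℝ ⊤, Q.map (fun T => T f) =
    gaussianReal ((∫ z in Lp, f z) - ∫ z in Lm, f z) (8 / Real.pi * V (Lp ∪ Lm) f).toNNReal

/-- The marked domains and their approximations exist. (1) In a bounded simply connected domain
whose boundary is a curve, every pair of distinct boundary points is the pair of marked points of a
marked boundary curve. (2) The boundary curve of a marked Jordan domain is a marked boundary curve.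
(3) Every marked boundary curve is the uniform limit, modulo reparametrization, of marked lattice
polygons, for every sequence of meshes. -/
def Domains : Prop :=
  (∀ (D : Set ℂ) (α : ℝ → ℂ), IsOpen D → IsSimplyConnected D → Bornology.IsBounded D →
    ContinuousOn α (Icc 0 1) → frontier D = α '' Icc 0 1 → ∀ s : ℝ, (s = 1 ∨ s = -1) →
      ∀ a ∈ frontier D, ∀ b ∈ frontier D, a ≠ b →
        ∃ ψ β, Param D ψ s β ∧ β 0 = a ∧ β (1 / 2) = b) ∧
  (∀ D β, Marked D β → ∃ ψ s, Param D ψ s β) ∧
  ∀ D ψ s β, Param D ψ s β → ∀ δ : ℕ → ℝ, (∀ n, 0 < δ n) → Tendsto δ atTop (𝓝 0) →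
    ∃ (N k : ℕ → ℕ) (p : ∀ n, ZMod (N n) → ℤ × ℤ) (S : ℕ → Finset (Finset (ℤ × ℤ))),
      Approximates β δ N k p S

/-- The joint limit. There is a chordal `SLE_4` trace `γ` in the upper half-plane such that for
every domain `D` with a marked boundary curve `β`, given by the conformal map `ψ`, there are: the
Green function `G` of `D`; the law `Φ` on `𝓓'(D)` of the Gaussian free field `Φ_D` (the only one
with the covariance `G`, not degenerate); the harmonic function `u` (the only one), as a
distribution `U`; the curve `Γ = ψ ∘ γ` from `a` to `b`; and laws `Q ω` on `𝓓'(D)`, such that: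

(1) almost surely `Γ` has zero area and cuts `D` into the two disjoint open sets `L_+`, `L_-`, on
the sides of `A_+`, `A_-`, and `Q ω` is the (only) law of the Gaussian field with the mean `±1` on
`L_±` and the covariance `(8/π) (-Δ)⁻¹` of `D ∖ Γ`;

(2) the average of `Q ω` is the law of `u + √(8/π) Φ_D`;

(3) for all lattice domains whose marked boundary curves converge to `β`, the interfaces exist, the
fields `h_δ` and their means are distributions `X n h`, `M n`, the means converge to `u`,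
`h_δ - E h_δ → √(8/π) Φ_D` in law in `𝓓'(D)`, and the pair of the interface and the field converges
in law to the pair of `Γ` and the field which has the law `Q ω` given `γ`: the expectations of all
bounded continuous functions of the curve and the distribution which are invariant under increasing
reparametrization of the curve converge. -/
def Joint : Prop :=
  ∃ (Ω : Type) (_ : MeasurableSpace Ω) (P : Measure Ω) (γ : Ω → ℝ → ℂ),
    IsProbabilityMeasure P ∧ IsSLE 4 P γ ∧
    ∀ (D : Opens ℂ) (ψ : ℂ → ℂ) (s : ℝ) (β : ℝ → ℂ), Param D ψ s β → (∃ G, IsGreen D G) ∧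
    ∀ [MeasurableSpace (Distribution D ℝ ⊤)] [BorelSpace (Distribution D ℝ ⊤)] (G : ℂ → ℂ → ℝ),
    IsGreen D G → ∃ (Φ : Measure (Distribution D ℝ ⊤)) (u : ℂ → ℝ) (U : Distribution D ℝ ⊤)
      (Γ : Ω → C(unitInterval, ℂ)) (Q : Ω → Measure (Distribution D ℝ ⊤)),
      IsField (fun T f => T f) G Φ ∧
      (∀ Φ', IsField (fun (T : Distribution D ℝ ⊤) f => T f) G Φ' → Φ' = Φ) ∧
      (∀ f, f ≠ 0 → 0 < ∫ T, T f * T f ∂Φ) ∧
      IsMean D ψ s u ∧ (∀ u', IsMean D ψ s u' → EqOn u' u D) ∧ (∀ f, U f = ∫ z, u z * f z) ∧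
      (∀ᵐ ω ∂P, Γ ω 1 = β (1 / 2) ∧
        (∀ t : unitInterval, (t : ℝ) < 1 → Γ ω t = ψ (γ ω (t / (1 - t)))) ∧
        volume (range (Γ ω)) = 0 ∧ IsOpen (ψ '' side (γ ω) s) ∧ IsOpen (ψ '' side (γ ω) (-s)) ∧
        Disjoint (ψ '' side (γ ω) s) (ψ '' side (γ ω) (-s)) ∧
        ψ '' side (γ ω) s ∪ ψ '' side (γ ω) (-s) = (D : Set ℂ) \ range (Γ ω) ∧
        IsCond (ψ '' side (γ ω) s) (ψ '' side (γ ω) (-s)) (Q ω) ∧
        ∀ Q', IsCond (ψ '' side (γ ω) s) (ψ '' side (γ ω) (-s)) Q' → Q' = Q ω) ∧
      (∀ Ψ : C(unitInterval, ℂ) × Distribution D ℝ ⊤ → ℝ, Continuous Ψ → (∃ M, ∀ q, |Ψ q| ≤ M) →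
        AEMeasurable (fun ω => ∫ T, Ψ (Γ ω, T) ∂Q ω) P) ∧
      (∀ F : Distribution D ℝ ⊤ → ℝ, Continuous F → (∃ M, ∀ T, |F T| ≤ M) →
        ∫ ω, ∫ T, F T ∂Q ω ∂P = ∫ T, F (U + √(8 / Real.pi) • T) ∂Φ) ∧
      ∀ (δ : ℕ → ℝ) (N k : ℕ → ℕ) (p : ∀ n, ZMod (N n) → ℤ × ℤ)
        (S : ℕ → Finset (Finset (ℤ × ℤ))), Approximates β δ N k p S →
        (∀ n, ∀ h ∈ Heights (p n) (S n) (arcs (k n)), ∃ c,
          IsInterface (p n) (k n) (S n) (δ n) h c) ∧
        ∃ (X : ℕ → (ℤ × ℤ → ℤ) → Distribution D ℝ ⊤) (M : ℕ → Distribution D ℝ ⊤),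
          (∀ n h f, X n h f = fld (S n) (δ n) f h) ∧
          (∀ n f, M n f = ∫ h, fld (S n) (δ n) f h ∂law (p n) (S n) (arcs (k n))) ∧
          Tendsto M atTop (𝓝 U) ∧
          InLaw (fun n => law (p n) (S n) (arcs (k n))) (fun n h => X n h - M n) Φ
            (fun T => √(8 / Real.pi) • T) ∧
          ∀ c : ∀ _ : ℕ, (ℤ × ℤ → ℤ) → C(unitInterval, ℂ),
            (∀ n, ∀ h ∈ Heights (p n) (S n) (arcs (k n)),
              IsInterface (p n) (k n) (S n) (δ n) h (c n h)) →
            ∀ Ψ : C(unitInterval, ℂ) × Distribution D ℝ ⊤ → ℝ, Continuous Ψ →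
              (∃ M, ∀ q, |Ψ q| ≤ M) →
              (∀ (x : C(unitInterval, ℂ)) (T : Distribution D ℝ ⊤)
                (σ : C(unitInterval, unitInterval)), StrictMono σ → Function.Surjective σ →
                  Ψ (x.comp σ, T) = Ψ (x, T)) →
              Tendsto (fun n => ∫ h, Ψ (c n h, X n h) ∂law (p n) (S n) (arcs (k n))) atTop
                (𝓝 (∫ ω, ∫ T, Ψ (Γ ω, T) ∂Q ω ∂P))

end Vale.Agent.N153J
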