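import Vale.Agent.N153J.Top

/-!
N153J: the Gaussian limit in lattice domains which fill two disjoint open sets, with the boundary
values `+1` around the first and `-1` around the second.
-/

set_option autoImplicit false
set_option linter.unusedVariables false

namespace Vale.Agent.N153J

open Filter Topology Set Metric MeasureTheory Polynomial
open Vale.Agent.P145.PT Vale.Agent.P153 Vale.Agent.P153.F.Top Vale.Agent.P153.R2
open Vale.Agent.P153.R2.FLDI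
open Vale.Agent.P153.Topo (Conn)
open Vale.Agent.P153.R2.INTF (CA)
open Vale.Agent.P153.R2.OBSV (rd)
open Vale.Agent.P153.R2.KAPV (ArcB harm_avg Adm InsF WhitF hf mu mu_hB mu_hB2 mu_spec)

/-- The lattice laws `μ n` in the open set `D`, whose averages near the boundary are close to the
harmonic function `u`. -/
structure ArcL (κ : ℝ) (δ : ℕ → ℝ) (B : ℕ → Finset (ℤ × ℤ)) (μ : ℕ → Measure Om)
    (D : Set (ℝ × ℝ)) (u : ℝ × ℝ → ℝ) (U : Ultrafilter ℕ) : Prop where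
  base : ArcB κ δ B μ D U
  harm : Harm D u
  bdd : ∃ K : ℝ, ∀ z ∈ D, |u z| ≤ K
  land : ∀ f, TestOn D f → ∀ (k : ℕ) (ε : ℝ), 0 < ε → ∃ r > 0, ∀ x ∈ D, dd D x < r →
    ∀ᶠ n in (U : Filter ℕ), |∫ ω, (hB (B n) (δ n) (bump (dd D x / 2) x) ω - u x) *
      hB (B n) (δ n) f ω ^ k ∂(μ n)| ≤ ε

section

variable {κ : ℝ} {δ : ℕ → ℝ} {B : ℕ → Finset (ℤ × ℤ)} {μ : ℕ → Measure Om}
  {D : Set (ℝ × ℝ)} {u : ℝ × ℝ → ℝ} {U : Ultrafilter ℕ}

theorem ArcL.land_poly (A : ArcL κ δ B μ D u U) {f : ℝ × ℝ → ℝ} (hf : TestOn D f) (p : ℝ[X]) :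
    ∀ ε : ℝ, 0 < ε → ∃ r > 0, ∀ x ∈ D, dd D x < r →
    ∀ᶠ n in (U : Filter ℕ), |∫ ω, (hB (B n) (δ n) (bump (dd D x / 2) x) ω - u x) *
      p.eval (hB (B n) (δ n) f ω) ∂(μ n)| ≤ ε := by
  induction p using Polynomial.induction_on' with
  | add p q hp hq =>
    intro ε hε
    obtain ⟨r1, hr1, h1⟩ := hp (ε / 2) (half_pos hε)
    obtain ⟨r2, hr2, h2⟩ := hq (ε / 2) (half_pos hε)
    refine ⟨min r1 r2, lt_min hr1 hr2, fun x hx hxr => ?_⟩
    filter_upwards [h1 x hx (hxr.trans_le (min_le_left _ _)),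
      h2 x hx (hxr.trans_le (min_le_right _ _))] with n g1 g2
    have i1 := (A.base.mom n).integrable (Alg.mul (alg_sub_const (B := B n) (δ := δ n)
      (bump (dd D x / 2) x) (u x)) (alg_poly (B := B n) (δ := δ n) f p))
    have i2 := (A.base.mom n).integrable (Alg.mul (alg_sub_const (B := B n) (δ := δ n)
      (bump (dd D x / 2) x) (u x)) (alg_poly (B := B n) (δ := δ n) f q))
    simp only [eval_add, mul_add]
    rw [integral_add i1 i2]
    exact (abs_add_le _ _).trans (by linarith)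
  | monomial k a =>
    intro ε hε
    obtain ⟨r, hr, h⟩ := A.land f hf k (ε / (|a| + 1)) (by positivity)
    refine ⟨r, hr, fun x hx hxr => ?_⟩
    filter_upwards [h x hx hxr] with n g
    simp only [eval_monomial]
    have e1 : ∫ ω, (hB (B n) (δ n) (bump (dd D x / 2) x) ω - u x) *
        (a * hB (B n) (δ n) f ω ^ k) ∂(μ n) =
        a * ∫ ω, (hB (B n) (δ n) (bump (dd D x / 2) x) ω - u x) *
          hB (B n) (δ n) f ω ^ k ∂(μ n) := by
      rw [← integral_const_mul]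
      congr 1
      funext ω
      ring
    rw [e1, abs_mul]
    calc |a| * _ ≤ |a| * (ε / (|a| + 1)) := mul_le_mul_of_nonneg_left g (abs_nonneg _)
      _ = ε * (|a| / (|a| + 1)) := by ring
      _ ≤ ε := by
          have : |a| / (|a| + 1) ≤ 1 := by rw [div_le_one (by positivity)]; linarith
          nlinarith

theorem ArcL.Ac_dec (A : ArcL κ δ B μ D u U) {f : ℝ × ℝ → ℝ} (hf : TestOn D f) (k : ℕ) :
    DecE D ∅ (Ac δ B μ u U f k) := by
  have hD := A.base.op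
  have hb := A.base.bdd
  obtain ⟨K, hK⟩ := A.bdd
  have key : ∀ ε : ℝ, 0 < ε → ∃ r > 0, ∀ x ∈ D, dd D x < r →
      |Ac δ B μ u U f k (bump (dd D x / 2) x)| ≤ ε := by
    intro ε hε
    obtain ⟨r, hr, h⟩ := A.land_poly hf ((X - Polynomial.C (∫ z, u z * f z)) ^ k) ε hε
    refine ⟨r, hr, fun x hx hxr => ?_⟩
    have t2 := A.base.tend_Ac (bump_test' hD hb hx) hf u k
    rw [harm_avg hD hb A.harm hK hx] at t2
    refine le_of_tendsto t2.abs ?_
    simpa only [eval_pk] using h x hx hxr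
  refine ⟨fun ε ρ hε _ => ?_, ?_⟩
  · obtain ⟨r, hr, h⟩ := key ε hε
    exact ⟨r, hr, fun x hx hxr _ => h x hx hxr⟩
  · obtain ⟨r, hr, h⟩ := key 1 one_pos
    exact ⟨1, r, hr, h⟩

theorem ArcL.ac0 (A : ArcL κ δ B μ D u U) (g : ℝ × ℝ → ℝ) : ac δ B μ u U g 0 = 1 := by
  refine lm_eq ?_
  have : (fun n => ∫ ω, (hB (B n) (δ n) g ω - ∫ z, u z * g z) ^ 0 ∂(μ n)) =
      fun _ => (1 : ℝ) := by
    funext n
    have := (A.base.mom n).prob
    simp
  rw [this]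
  exact tendsto_const_nhds

theorem ArcL.covE (A : ArcL κ δ B μ D u U) : CovE D ∅ κ fun g f => Ac δ B μ u U f 1 g where
  symm := fun f g _ _ => by
    unfold Ac
    congr 1
    funext n
    congr 1
    funext ω
    ring
  pos := fun f hf => ge_of_tendsto' (A.base.tend_Ac hf hf u 1) fun n => integral_nonneg fun ω => by
    simp only [pow_one]
    exact mul_self_nonneg _
  bd := fun g hg => by
    obtain ⟨K, hK⟩ := A.bdd
    exact A.base.Ac_l2fn hg A.harm hK 1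
  sd := fun ψ g hψ hg => by
    have h := A.base.Ac_sd hg A.harm hψ 0
    rw [A.ac0] at h
    simp only [zero_add] at h
    rw [h]
    push_cast
    ring
  dec := fun g hg => A.Ac_dec hg 1

/-- The limit moments. -/
theorem ArcL.gauss (A : ArcL κ δ B μ D u U) {f : ℝ × ℝ → ℝ} (hf : TestOn D f) (k : ℕ) :
    Tendsto (fun n => ∫ ω, (hB (B n) (δ n) f ω - ∫ z, u z * f z) ^ k ∂(μ n)) U
      (𝓝 (gm (κ * V D f) k)) := by
  have h := moments_gaussE A.base.op A.base.bdd (fun e he => absurd he (Finset.notMem_empty e))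
    A.base.κpos hf A.covE
    (fun k g => Ac δ B μ u U f k g) (fun k => ac δ B μ u U f k) rfl (A.ac0 f) (fun n => ?_)
    (fun n => ?_) (fun ψ hψ => A.base.Ac_sd0 A.harm hψ)
    (fun n ψ hψ => A.base.Ac_sd hf A.harm hψ n)
    (fun n => A.Ac_dec hf n) k
  · rw [← h]
    exact A.base.tend_ac hf u k
  · unfold ac Ac
    congr 1
    funext n
    congr 1
    funext ω
    rw [pow_succ, mul_comm]
  · obtain ⟨K, hK⟩ := A.bdd
    exact A.base.Ac_l2fn hf A.harm hK n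

end

/-- Arc domains of the lattice which fill the open sets `Wp` and `Wm`; from the points of `Wp` no
wall `-1` is visible and from the points of `Wm` no wall `+1`. -/
structure Fill (R₀ : ℝ) (δ : ℕ → ℝ) (F P M : ℕ → Set Pt) (Wp Wm : Set (ℝ × ℝ)) : Prop where
  lim : Tendsto δ atTop (𝓝 0)
  adm : ∀ n, Adm R₀ (δ n) (F n) (P n) (M n)
  opP : IsOpen Wp
  opM : IsOpen Wm
  disj : Disjoint Wp Wm
  sub : Wp ∪ Wm ⊆ ball 0 (R₀ + 1)
  ins : ∀ K, IsCompact K → K ⊆ Wp ∪ Wm → ∀ᶠ n in atTop, ∀ v, dp (δ n) v ∈ K → v ∈ F n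
  out : ∀ y ∈ frontier (Wp ∪ Wm), ∀ ε > 0, ∀ᶠ n in atTop, ∃ v ∉ F n, dist (dp (δ n) v) y ≤ ε
  visP : ∀ x ∈ Wp, ∀ᶠ n in atTop, ∀ a, Conn (F n) (rd (δ n) x) a → ∀ b ∈ M n, ¬ Adj a b
  visM : ∀ x ∈ Wm, ∀ᶠ n in atTop, ∀ a, Conn (F n) (rd (δ n) x) a → ∀ b ∈ P n, ¬ Adj a b

/-- The function `-1` on `Wp`, `1` on `Wm`. -/
noncomputable def uu (Wp Wm : Set (ℝ × ℝ)) (z : ℝ × ℝ) : ℝ :=
  Wm.indicator 1 z - Wp.indicator 1 z

variable {R₀ : ℝ} {δ : ℕ → ℝ} {F P M : ℕ → Set Pt} {Wp Wm : Set (ℝ × ℝ)}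

theorem uu_P (h : Disjoint Wp Wm) {x : ℝ × ℝ} (hx : x ∈ Wp) : uu Wp Wm x = -1 := by
  rw [uu, indicator_of_mem hx, indicator_of_notMem (Set.disjoint_left.1 h hx)]
  simp

theorem uu_M (h : Disjoint Wp Wm) {x : ℝ × ℝ} (hx : x ∈ Wm) : uu Wp Wm x = 1 := by
  rw [uu, indicator_of_mem hx, indicator_of_notMem (Set.disjoint_right.1 h hx)]
  simp

theorem uu_le (Wp Wm : Set (ℝ × ℝ)) (x : ℝ × ℝ) : |uu Wp Wm x| ≤ 1 := by
  unfold uu
  by_cases h1 : x ∈ Wp <;> by_cases h2 : x ∈ Wm <;> simp [h1, h2]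

theorem uu_harm (h1 : IsOpen Wp) (h2 : IsOpen Wm) (h : Disjoint Wp Wm) :
    Harm (Wp ∪ Wm) (uu Wp Wm) := by
  have key : ∀ x ∈ Wp ∪ Wm, ∃ c : ℝ, uu Wp Wm =ᶠ[𝓝 x] fun _ => c := by
    rintro x (hx | hx)
    · exact ⟨-1, by filter_upwards [h1.mem_nhds hx] with y hy using uu_P h hy⟩
    · exact ⟨1, by filter_upwards [h2.mem_nhds hx] with y hy using uu_M h hy⟩
  have hd : ∀ {g : ℝ × ℝ → ℝ} {x : ℝ × ℝ} {c : ℝ}, g =ᶠ[𝓝 x] (fun _ => c) → ∀ v : ℝ × ℝ,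
      (fun z => fderiv ℝ g z v) =ᶠ[𝓝 x] fun _ => 0 := by
    intro g x c hg v
    filter_upwards [hg.fderiv (𝕜 := ℝ)] with z hz
    rw [hz]
    simp
  refine ⟨fun x hx => ?_, fun x hx => ?_⟩
  · obtain ⟨c, hc⟩ := key x hx
    exact (contDiffAt_const.congr_of_eventuallyEq hc).contDiffWithinAt
  · obtain ⟨c, hc⟩ := key x hx
    have e1 : dx (dx (uu Wp Wm)) x = 0 := (hd (hd hc (1, 0)) (1, 0)).eq_of_nhds
    have e2 : dy (dy (uu Wp Wm)) x = 0 := (hd (hd hc (0, 1)) (0, 1)).eq_of_nhds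
    rw [lap, e1, e2, add_zero]

namespace Fill

theorem op (h : Fill R₀ δ F P M Wp Wm) : IsOpen (Wp ∪ Wm) := h.opP.union h.opM

theorem bdd (h : Fill R₀ δ F P M Wp Wm) : Bornology.IsBounded (Wp ∪ Wm) :=
  isBounded_ball.subset h.sub

theorem supp (h : Fill R₀ δ F P M Wp Wm) {f : ℝ × ℝ → ℝ} (hf : TestOn (Wp ∪ Wm) f) :
    ∀ z, f z ≠ 0 → z ∈ ball (0 : ℝ × ℝ) (R₀ + 1) :=
  fun z hz => h.sub (hf.2.2 (subset_tsupport f hz))

theorem insF (h : Fill R₀ δ F P M Wp Wm) {f : ℝ × ℝ → ℝ} (hf : TestOn (Wp ∪ Wm) f) :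
    ∃ r > 0, ∀ r' ≤ r, ∀ᶠ n in atTop, InsF (δ n) (F n) f r' := by
  obtain ⟨r, hr, hs⟩ := hf.cs.isCompact.exists_cthickening_subset_open h.op hf.2.2
  refine ⟨r, hr, fun r' hr' => ?_⟩
  filter_upwards [h.ins _ hf.cs.isCompact.cthickening hs] with n hn v ⟨z, hz, hv⟩
  exact hn v (mem_cthickening_of_dist_le _ z r _ hz (hv.trans hr'))

theorem whit (h : Fill R₀ δ F P M Wp Wm) {x : ℝ × ℝ} (hx : x ∈ Wp ∪ Wm) :
    ∀ᶠ n in atTop, WhitF (δ n) (F n) x (dd (Wp ∪ Wm) x / 2) := by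
  have h0 : 0 < dd (Wp ∪ Wm) x := (dd_pos h.op h.bdd).2 hx
  obtain ⟨y, hy, he⟩ := h.op.isClosed_compl.exists_infDist_eq_dist (compl_ne h.bdd) x
  have he' : dd (Wp ∪ Wm) x = dist x y := he
  have hyf : y ∈ frontier (Wp ∪ Wm) := by
    rw [h.op.frontier_eq]
    refine ⟨closure_mono (s := ball x (dist x y)) (fun z hz => ball_sub (x := x) (s := dist z x)
      (by rw [he']; exact hz) (mem_closedBall.2 le_rfl)) ?_, hy⟩
    rw [closure_ball x (by rw [← he']; exact h0.ne'), mem_closedBall, dist_comm]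
  filter_upwards [h.ins _ (isCompact_closedBall x (21 / 20 * (dd (Wp ∪ Wm) x / 2)))
    (ball_sub (by linarith)), h.out y hyf _ h0] with n h1 ⟨v, hv, h2⟩
  refine ⟨fun w hw => h1 w hw, v, hv, ?_⟩
  have := dist_triangle_right (dp (δ n) v) x y
  linarith

theorem small (h : Fill R₀ δ F P M Wp Wm) {ε : ℝ} (hε : 0 < ε) : ∀ᶠ n in atTop, δ n < ε :=
  h.lim.eventually (gt_mem_nhds hε)

theorem arcB (h : Fill R₀ δ F P M Wp Wm) {U : Ultrafilter ℕ} (hU : (U : Filter ℕ) ≤ atTop) :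
    ArcB (8 / Real.pi) δ (fun n => Bx (δ n) (R₀ + 1))
      (fun n => mu (F n) (M n) (Bx (δ n) (R₀ + 1))) (Wp ∪ Wm) U := by
  obtain ⟨hmb, hl2, hvb, hsd, -, -⟩ := N153.lat_inputs
  have hfin : ∀ n, (F n).Finite := fun n => (h.adm n).arcs.fin
  have hδ : ∀ n, 0 < δ n := fun n => (h.adm n).dpos
  refine ⟨by positivity, h.op, h.bdd, fun n => (mu_spec (hfin n) _).1, fun f hf' k => ?_, ?_, ?_,
    fun ψ hψ => ?_, fun ψ f hψ hf' k => ?_⟩
  · obtain ⟨r, hr, hi⟩ := h.insF hf'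
    obtain ⟨C, δ₀, hδ₀, h1⟩ := hmb R₀ f (hf'.mono (subset_univ _)) k r hr
    refine ⟨C, Eventually.filter_mono hU ?_⟩
    filter_upwards [h.small hδ₀, hi r le_rfl] with n h2 h3
    rw [mu_hB (hfin n) (hδ n) (h.supp hf') fun a => a ^ (2 * k)]
    refine le_trans (le_of_eq ?_) (h1 _ h2 _ _ _ (h.adm n) h3)
    exact Ex_congr fun h _ => by rw [pow_mul, neg_sq, ← pow_mul]
  · obtain ⟨C, hC, h1⟩ := hl2 R₀
    refine ⟨C, hC, fun f hf' ε hε => Eventually.filter_mono hU ?_⟩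
    obtain ⟨r, hr, hi⟩ := h.insF hf'
    obtain ⟨δ₀, hδ₀, h0⟩ := h1 f (hf'.mono (subset_univ _)) r ε hr hε
    filter_upwards [h.small hδ₀, hi r le_rfl] with n h2 h3
    rw [mu_hB (hfin n) (hδ n) (h.supp hf') fun a => a ^ 2]
    refine le_trans (le_of_eq ?_) (h0 _ h2 _ _ _ (h.adm n) h3)
    exact Ex_congr fun h _ => by rw [neg_sq]
  · obtain ⟨K, hK, h1⟩ := hvb R₀
    refine ⟨K, hK, fun x hx => Eventually.filter_mono hU ?_⟩
    have h0 : 0 < dd (Wp ∪ Wm) x := (dd_pos h.op h.bdd).2 hx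
    obtain ⟨δ₀, hδ₀, h2⟩ := h1 x _ (half_pos h0)
    filter_upwards [h.small hδ₀, h.whit hx] with n h3 h4
    rw [mu_hB (hfin n) (hδ n) (h.supp (bump_test' h.op h.bdd hx)) fun a => a ^ 2]
    refine le_trans (le_of_eq ?_) (h2 _ h3 _ _ _ (h.adm n) h4)
    exact Ex_congr fun h _ => by rw [neg_sq]
  · refine Tendsto.mono_left ?_ hU
    rw [Metric.tendsto_nhds]
    intro ε hε
    obtain ⟨r, hr, hi⟩ := h.insF hψ
    obtain ⟨δ₀, hδ₀, h1⟩ := hsd R₀ ψ ψ (hψ.mono (subset_univ _)) (hψ.mono (subset_univ _)) 0 r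
      (ε / 2) hr (half_pos hε)
    filter_upwards [h.small hδ₀, hi r le_rfl] with n h2 h3
    have h4 := h1 _ h2 _ _ _ (h.adm n) h3 h3
    rw [Real.dist_eq, sub_zero, mu_hB (hfin n) (hδ n) (h.supp hψ.lap) fun a => a, Ex_neg, abs_neg]
    simp only [pow_zero, mul_one, Nat.cast_zero, mul_zero, zero_mul, add_zero] at h4
    linarith
  · refine Tendsto.mono_left ?_ hU
    rw [Metric.tendsto_nhds]
    intro ε hε
    obtain ⟨r, hr, hi⟩ := h.insF hψ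
    obtain ⟨r', hr', hi'⟩ := h.insF hf'
    obtain ⟨δ₀, hδ₀, h1⟩ := hsd R₀ ψ f (hψ.mono (subset_univ _)) (hf'.mono (subset_univ _)) (k + 1)
      (min r r') (ε / 2) (lt_min hr hr') (half_pos hε)
    filter_upwards [h.small hδ₀, hi _ (min_le_left r r'), hi' _ (min_le_right r r')] with n h2 h3 h3'
    have h4 := h1 _ h2 _ _ _ (h.adm n) h3 h3'
    rw [Real.dist_eq, sub_zero]
    unfold sdE
    rw [mu_hB2 (hfin n) (hδ n) (h.supp hψ.lap) (h.supp hf') fun a b => a * b ^ (k + 1),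
      mu_hB (hfin n) (hδ n) (h.supp hf') fun a => a ^ k]
    have e1 : (Ex (CA (F n) (M n)) fun h => -hf (δ n) (lap ψ) h * (-hf (δ n) f h) ^ (k + 1)) =
        (-1) ^ k * Ex (CA (F n) (M n)) fun h => hf (δ n) (lap ψ) h * hf (δ n) f h ^ (k + 1) := by
      rw [← Ex_const_mul]
      refine Ex_congr fun h _ => ?_
      rw [neg_pow (hf (δ n) f h) (k + 1), pow_succ]
      ring
    have e2 : (Ex (CA (F n) (M n)) fun h => (-hf (δ n) f h) ^ k) =
        (-1) ^ k * Ex (CA (F n) (M n)) fun h => hf (δ n) f h ^ k := by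
      rw [← Ex_const_mul]
      refine Ex_congr fun h _ => ?_
      rw [neg_pow]
    rw [e1, e2]
    have e3 : (-1 : ℝ) ^ k * (Ex (CA (F n) (M n)) fun h => hf (δ n) (lap ψ) h *
        hf (δ n) f h ^ (k + 1)) + 8 / Real.pi * (k + 1) * (∫ z, ψ z * f z) *
        ((-1) ^ k * Ex (CA (F n) (M n)) fun h => hf (δ n) f h ^ k) =
        (-1) ^ k * (Ex (CA (F n) (M n)) (fun h => hf (δ n) (lap ψ) h * hf (δ n) f h ^ (k + 1)) +
        8 / Real.pi * ((k + 1 : ℕ) : ℝ) * (∫ z, ψ z * f z) * Ex (CA (F n) (M n))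
          (fun h => hf (δ n) f h ^ (k + 1 - 1))) := by
      rw [Nat.add_sub_cancel]
      push_cast
      ring
    rw [e3, abs_mul, abs_pow, abs_neg, abs_one, one_pow, one_mul]
    linarith

theorem arcL (h : Fill R₀ δ F P M Wp Wm) {U : Ultrafilter ℕ} (hU : (U : Filter ℕ) ≤ atTop) :
    ArcL (8 / Real.pi) δ (fun n => Bx (δ n) (R₀ + 1))
      (fun n => mu (F n) (M n) (Bx (δ n) (R₀ + 1))) (Wp ∪ Wm) (uu Wp Wm) U := by
  obtain ⟨-, -, -, -, hP, hM⟩ := N153.lat_inputs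
  have hfin : ∀ n, (F n).Finite := fun n => (h.adm n).arcs.fin
  have hδ : ∀ n, 0 < δ n := fun n => (h.adm n).dpos
  refine ⟨h.arcB hU, uu_harm h.opP h.opM h.disj, ⟨1, fun z _ => uu_le _ _ z⟩,
    fun f hf' k ε hε => ?_⟩
  obtain ⟨r, hr, hi⟩ := h.insF hf'
  obtain ⟨s, hs, hfs⟩ := hf'.inner h.op h.bdd
  obtain ⟨c, hc, h1⟩ := hP R₀ f (hf'.mono (subset_univ _)) k r ε hr hε
  obtain ⟨c', hc', h1'⟩ := hM R₀ f (hf'.mono (subset_univ _)) k r ε hr hε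
  refine ⟨min (s / 2) (min c c' * (s / 4)), lt_min (half_pos hs) (by positivity),
    fun x hx hxr => Eventually.filter_mono hU ?_⟩
  have h0 : 0 < dd (Wp ∪ Wm) x := (dd_pos h.op h.bdd).2 hx
  have hx1 := hxr.trans_le (min_le_left _ _)
  have hx2 := hxr.trans_le (min_le_right _ _)
  have hfar : ∀ z ∈ tsupport f, s / 2 ≤ dist z x := fun z hz => by
    have h2 : s < dd (Wp ∪ Wm) z := hfs.2.2 hz
    have h3 := dd_le_add (Wp ∪ Wm) z x
    linarith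
  have hcl : ∀ {n : ℕ} {X : Set Pt} {ρ : ℤ}, (∀ a, Conn (F n) (rd (δ n) x) a → ∀ b ∈ X, ¬ Adj a b) →
      ∀ a ∈ Cl (F n ∩ bx (rd (δ n) x) ρ) {rd (δ n) x}, ∀ b ∈ X, ¬ Adj a b := by
    rintro n X ρ h2 a ⟨v, rfl, hv⟩
    exact h2 a (hv.mono inter_subset_left)
  have hs1 := h.supp (bump_test' h.op h.bdd hx)
  rcases hx with hx' | hx'
  · obtain ⟨δ₀, hδ₀, h2⟩ := h1' (s / 2) (half_pos hs) x _ (half_pos h0)
      (by nlinarith [min_le_right c c']) hfar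
    filter_upwards [h.small hδ₀, hi r le_rfl, h.whit (Or.inl hx'), h.visP x hx'] with n a1 a2 a3 a4
    have key := h2 _ a1 _ _ _ (h.adm n) a2 a3 (hcl a4)
    rw [uu_P h.disj hx', mu_hB2 (hfin n) (hδ n) hs1 (h.supp hf') fun a b => (a - -1) * b ^ k]
    have e1 : (Ex (CA (F n) (M n)) fun g => (-hf (δ n) (bump (dd (Wp ∪ Wm) x / 2) x) g - -1) *
        (-hf (δ n) f g) ^ k) = (-1) ^ (k + 1) * Ex (CA (F n) (M n)) fun g =>
          (hf (δ n) (bump (dd (Wp ∪ Wm) x / 2) x) g - 1) * hf (δ n) f g ^ k := by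
      rw [← Ex_const_mul]
      refine Ex_congr fun g _ => ?_
      rw [neg_pow (hf (δ n) f g) k, pow_succ]
      ring
    rw [e1, abs_mul, abs_pow, abs_neg, abs_one, one_pow, one_mul]
    exact key
  · obtain ⟨δ₀, hδ₀, h2⟩ := h1 (s / 2) (half_pos hs) x _ (half_pos h0)
      (by nlinarith [min_le_left c c']) hfar
    filter_upwards [h.small hδ₀, hi r le_rfl, h.whit (Or.inr hx'), h.visM x hx'] with n a1 a2 a3 a4
    have key := h2 _ a1 _ _ _ (h.adm n) a2 a3 (hcl a4)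
    rw [uu_M h.disj hx', mu_hB2 (hfin n) (hδ n) hs1 (h.supp hf') fun a b => (a - 1) * b ^ k]
    have e1 : (Ex (CA (F n) (M n)) fun g => (-hf (δ n) (bump (dd (Wp ∪ Wm) x / 2) x) g - 1) *
        (-hf (δ n) f g) ^ k) = (-1) ^ (k + 1) * Ex (CA (F n) (M n)) fun g =>
          (hf (δ n) (bump (dd (Wp ∪ Wm) x / 2) x) g + 1) * hf (δ n) f g ^ k := by
      rw [← Ex_const_mul]
      refine Ex_congr fun g _ => ?_
      rw [neg_pow (hf (δ n) f g) k, pow_succ]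
      ring
    rw [e1, abs_mul, abs_pow, abs_neg, abs_one, one_pow, one_mul]
    exact key

/-- **The moments.** -/
theorem gauss (h : Fill R₀ δ F P M Wp Wm) {f : ℝ × ℝ → ℝ} (hf' : TestOn (Wp ∪ Wm) f) (j : ℕ) :
    Tendsto (fun n => Ex (CA (F n) (M n)) fun g => (- hf (δ n) f g - ∫ z, uu Wp Wm z * f z) ^ j)
      atTop (𝓝 (gm (8 / Real.pi * V (Wp ∪ Wm) f) j)) := by
  refine (tendsto_iff_ultrafilter _ _ _).2 fun U hU => ((h.arcL hU).gauss hf' j).congr fun n => ?_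
  exact mu_hB (h.adm n).arcs.fin (h.adm n).dpos (h.supp hf')
    fun a => (a - ∫ z, uu Wp Wm z * f z) ^ j

end Fill

end Vale.Agent.N153J
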