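import Vale.Agent.N153J.Sub

/-!
N153J: the joint limit of the interface and the field.
-/

set_option autoImplicit false
set_option linter.unusedVariables false
set_option linter.unusedSectionVars false

namespace Vale.Agent.N153J

open MeasureTheory ProbabilityTheory Filter Topology Set Metric TopologicalSpace
open scoped NNReal ENNReal
open Vale.Agent.P153 Vale.Agent.P153.R2 Vale.Agent.N153
open Vale.Agent.P153.R2.Final (Heights law mean IsInterface IsPolygon Encloses)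
open Vale.Agent.P153.R2.UNIQ hiding Hg
open Vale.Agent.P153.R2.INTF (CA hist hist_iff)
open Vale.Agent.P153.R2.DRV (Cs st nu ru pl sh bk)
open Vale.Agent.P153.R2.OBSV (dm)
open Vale.Agent.P153.H212 (e)
open Vale.Agent.P153D (Te Di)
open Vale.Agent.P145.PT (V)

section One

variable {n k : ℕ} {p : ZMod n → ℤ × ℤ} {S : Finset Final.Tri} {δ : ℝ}

/-- The canonical parametrization of the interface. -/
noncomputable def can (δ : ℝ) (p : ZMod n → ℤ × ℤ) (S : Finset Final.Tri) (g : Hg) :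
    C(unitInterval, ℂ) :=
  ⟨fun t => pl δ (ru p S g) (nu p S g * t), (DRV.pl_cont δ _).comp_continuous (by fun_prop)
    fun t => mul_nonneg (Nat.cast_nonneg _) t.2.1⟩

theorem inv_can (hδ : 0 < δ) (hk : 0 < k) (hkn : k < n) (hp : IsPolygon p) (hS : Encloses p S)
    {h : Hg} (hh : h ∈ Heights p k S) {x : C(unitInterval, ℂ)} (hx : IsInterface p k S δ h x)
    {F : C(unitInterval, ℂ) → ℝ} (hF : Inv F) : F x = F (can δ p S (sh p S h)) := by
  obtain ⟨h0, -, -, -, -, h1⟩ := POLY.s_can _ _ _ _ _ hδ hk hkn hp hS h hh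
  obtain ⟨σ, s1, s2, s3, s4, s5⟩ := h1 x hx
  have hν : (0 : ℝ) < nu p S (sh p S h) := by exact_mod_cast h0
  let τ : C(unitInterval, unitInterval) := ⟨fun t => ⟨σ t / nu p S (sh p S h),
    div_nonneg (s3 ▸ s2.monotone t.2.1) hν.le, (div_le_one hν).2 (s4 ▸ s2.monotone t.2.2)⟩,
    (s1.div_const _).subtype_mk _⟩
  rw [← hF (can δ p S (sh p S h)) τ (fun a b hab => div_lt_div_of_pos_right (s2 hab) hν) fun u => ?_]
  · congr 1
    ext t
    rw [s5]
    exact congrArg _ (mul_div_cancel₀ _ hν.ne').symm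
  · obtain ⟨t, ht⟩ := intermediate_value_univ 0 1 s1 (show nu p S (sh p S h) * (u : ℝ) ∈ _ by
      rw [s3, s4]
      exact ⟨mul_nonneg hν.le u.2.1, mul_le_of_le_one_right hν.le u.2.2⟩)
    exact ⟨t, Subtype.ext (by
      change σ t / _ = _
      rw [ht, mul_div_cancel_left₀ _ hν.ne'])⟩

/-- Conditioning on the whole interface. -/
theorem tower2 (hk : 0 < k) (hkn : k < n) (hp : IsPolygon p) (hS : Encloses p S)
    (G : C(unitInterval, ℂ) → Hg → ℝ) : Ex (Cs p k S) (fun g => G (can δ p S g) g) =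
      Ex (Cs p k S) fun g => Ex (CA (FF p S g) (WM p k S g)) (G (can δ p S g)) := by
  have hfib : ∀ h ∈ Cs p k S, Cs p k S ∩ {h' | hist S (st p S) (nu p S) h' =
      hist S (st p S) (nu p S) h} = CA (FF p S h) (WM p k S h) := by
    intro h hh
    rw [FF, WM, ← INTF.markov (DRV.inn_Mn p k S) hh (DRV.st_adj hp) DRV.st_inn.1
      (DRV.st_Mn hp hk hkn).1 DRV.st_inn.2 (DRV.st_Mn hp hk hkn).2
      (DRV.nu_spec hp hS hk hkn hh).1]
    ext h'
    simp only [mem_inter_iff, mem_ofPred_eq, hist_iff]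
    exact ⟨fun ⟨a, b⟩ => ⟨a, b.2⟩, fun ⟨a, b⟩ => ⟨a, DRV.nu_stop hp hS hk hkn h hh h' a b, b⟩⟩
  have hc : ∀ a b, hist S (st p S) (nu p S) b = hist S (st p S) (nu p S) a →
      can δ p S b = can δ p S a := by
    intro a b hab
    obtain ⟨h1, h2⟩ := hist_iff.1 hab
    ext t
    change pl δ _ (nu p S b * t) = pl δ _ (nu p S a * t)
    rw [h1]
    exact DRV.pl_congr h2 (mul_nonneg (Nat.cast_nonneg _) t.2.1)
      (mul_le_of_le_one_right (Nat.cast_nonneg _) t.2.2)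
  refine Ex_eq_of_fiber DRV.Cs_finite (hist S (st p S) (nu p S)) _ _ ?_ ?_
  · intro a ha b hb hab
    rw [hc b a hab, ← hfib a ha, ← hfib b hb, hab]
  · intro a ha
    rw [← hfib a ha]
    exact Ex_congr fun b hb => by rw [hc a b hb.2]

theorem cond_eq (hδ : 0 < δ) (hk : 0 < k) (hkn : k < n) (hp : IsPolygon p) (hS : Encloses p S)
    {c : Hg → C(unitInterval, ℂ)} (hc : ∀ h ∈ Heights p k S, IsInterface p k S δ h (c h))
    {x : Heights p k S → C(unitInterval, ℂ)} (hx : ∀ ω, IsInterface p k S δ ω.1 (x ω))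
    {G : C(unitInterval, ℂ) → Hg → ℝ} (hG : ∀ g, Inv fun y => G y g) :
    mean (law p k S) (fun h => G (c h) h) = ∫ ω : Heights p k S,
      Ex (CA (FF p S (sh p S ω)) (WM p k S (sh p S ω))) (fun g => G (x ω) (bk p S g))
        ∂(uniformOn univ) := by
  have h1 : mean (law p k S) (fun h => G (c h) h) = mean (law p k S) fun h =>
      Ex (CA (FF p S (sh p S h)) (WM p k S (sh p S h))) fun g =>
        G (can δ p S (sh p S h)) (bk p S g) := by
    rw [DRV.mean_law hp hS, DRV.mean_law hp hS]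
    refine Eq.trans (Ex_congr fun g hg => ?_) ((tower2 (δ := δ) hk hkn hp hS
      fun y g => G y (bk p S g)).trans (Ex_congr fun g hg => by rw [DRV.sh_bk hp hS hg]))
    have h2 := DRV.bk_mem hp hS hg
    have h3 := inv_can hδ hk hkn hp hS h2 (hc _ h2) (hG (bk p S g))
    rwa [DRV.sh_bk hp hS hg] at h3
  rw [h1]
  refine (integral_uniformOn _ (i_fin n k p S hp hS).1 _).trans
    (integral_congr_ae (Eventually.of_forall fun ω => Ex_congr fun g _ => ?_))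
  exact (inv_can hδ hk hkn hp hS ω.2 (hx ω) (hG _)).symm

end One

/-- Convergence in law together with a convergent deterministic sequence. -/
theorem joint_lim {E A : Type} [TopologicalSpace E] [MeasurableSpace E] [OpensMeasurableSpace E]
    [TopologicalSpace A] {μ : ℕ → Measure Hg} {X : ℕ → Hg → E}
    (hi : ∀ n (F : Hg → ℝ), Integrable F (μ n)) {Q : Measure E} [IsProbabilityMeasure Q]
    (hl : ∀ F : E → ℝ, Continuous F → (∃ M, ∀ T, |F T| ≤ M) →
      Tendsto (fun n => ∫ g, F (X n g) ∂μ n) atTop (𝓝 (∫ T, F T ∂Q)))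
    {x : ℕ → A} {G : A} (hx : Tendsto x atTop (𝓝 G)) {Ψ : A × E → ℝ} (hΨ : Continuous Ψ) {M : ℝ}
    (hM : ∀ q, |Ψ q| ≤ M) :
    Tendsto (fun n => ∫ g, Ψ (x n, X n g) ∂μ n) atTop (𝓝 (∫ T, Ψ (G, T) ∂Q)) := by
  set K : ℕ → Set A := fun m => insert G (range fun j => x (j + m)) with hK
  have hKc : ∀ m, IsCompact (K m) := fun m =>
    (hx.comp (tendsto_add_atTop_nat m)).isCompact_insert_range
  set u : E → A → ℝ := fun T a => |Ψ (a, T) - Ψ (G, T)| with hu
  have huc : Continuous ↿u := by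
    change Continuous fun q : E × A => |Ψ (q.2, q.1) - Ψ (G, q.1)|
    fun_prop
  set o : ℕ → E → ℝ := fun m T => sSup (u T '' K m) with ho
  have hoc : ∀ m, Continuous (o m) := fun m => (hKc m).continuous_sSup huc
  have hne : ∀ m T, (u T '' K m).Nonempty := fun m T => ⟨_, G, mem_insert _ _, rfl⟩
  have hub : ∀ T a, u T a ≤ M + M := fun T a => (abs_sub _ _).trans (add_le_add (hM _) (hM _))
  have hle : ∀ m T, ∀ a ∈ K m, u T a ≤ o m T := fun m T a ha =>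
    le_csSup ⟨M + M, by rintro _ ⟨b, -, rfl⟩; exact hub T b⟩ (mem_image_of_mem _ ha)
  have h0 : ∀ m T, 0 ≤ o m T := fun m T => (abs_nonneg _).trans (hle m T G (mem_insert _ _))
  have hob : ∀ m T, |o m T| ≤ M + M := fun m T => by
    rw [abs_of_nonneg (h0 m T)]
    exact csSup_le (hne m T) (by rintro _ ⟨b, -, rfl⟩; exact hub T b)
  have h1 : Tendsto (fun m => ∫ T, o m T ∂Q) atTop (𝓝 (∫ T, (0 : ℝ) ∂Q)) := by
    refine tendsto_integral_of_dominated_convergence (fun _ => M + M)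
      (fun m => (hoc m).measurable.aestronglyMeasurable) (integrable_const _)
      (fun m => ae_of_all _ (hob m)) (ae_of_all _ fun T => ?_)
    rw [Metric.tendsto_atTop]
    intro ε hε
    have h2 : Tendsto (fun n => u T (x n)) atTop (𝓝 (u T G)) :=
      ((huc.comp (Continuous.prodMk_right T)).tendsto G).comp hx
    have h3 : u T G = 0 := by simp [hu]
    obtain ⟨m0, hm0⟩ := eventually_atTop.1 (h2.eventually (gt_mem_nhds (show u T G < ε / 2 by
      rw [h3]; exact half_pos hε)))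
    refine ⟨m0, fun m hm => ?_⟩
    rw [Real.dist_eq, sub_zero, abs_of_nonneg (h0 m T)]
    refine lt_of_le_of_lt (csSup_le (hne m T) ?_) (half_lt_self hε)
    rintro _ ⟨b, rfl | ⟨j, rfl⟩, rfl⟩
    · rw [h3]; exact (half_pos hε).le
    · exact (hm0 _ (by omega)).le
  rw [integral_zero] at h1
  rw [Metric.tendsto_nhds]
  intro ε hε
  obtain ⟨m, hm⟩ := (h1.eventually (gt_mem_nhds (half_pos hε))).exists
  filter_upwards [(hl _ (hoc m) ⟨_, hob m⟩).eventually (gt_mem_nhds hm), Metric.tendsto_nhds.1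
    (hl (fun T => Ψ (G, T)) (by fun_prop) ⟨M, fun T => hM _⟩) _ (half_pos hε),
    eventually_ge_atTop m] with n a1 a2 a3
  have a4 : dist (∫ g, Ψ (x n, X n g) ∂μ n) (∫ g, Ψ (G, X n g) ∂μ n) ≤ ∫ g, o m (X n g) ∂μ n := by
    rw [Real.dist_eq, ← integral_sub (hi n _) (hi n _)]
    exact abs_integral_le_integral_abs.trans (integral_mono (hi n _) (hi n _) fun g =>
      hle m _ _ (Or.inr ⟨n - m, by simp only [Nat.sub_add_cancel a3]⟩))
  linarith [dist_triangle (∫ g, Ψ (x n, X n g) ∂μ n) (∫ g, Ψ (G, X n g) ∂μ n) (∫ T, Ψ (G, T) ∂Q)]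

/-- The law of the field given the curve `Γ` in the disc. -/
def Cnd {Ω : Opens ℂ} (φ : ℂ → ℂ) (s : ℝ) (Γ : C(unitInterval, ℂ)) (Q : Measure (Di Ω)) : Prop :=
  IsProbabilityMeasure Q ∧ ∀ f : Te Ω, Q.map (fun T => T f) = gaussianReal
    (s * ∫ z, uu (dm (φ '' Sd Γ Complex.I)) (dm (φ '' Sd Γ (-Complex.I))) z * (f ∘ e.symm) z)
    (8 / Real.pi * V (dm (φ '' Sd Γ Complex.I) ∪ dm (φ '' Sd Γ (-Complex.I)))
      (f ∘ e.symm)).toNNReal

open Classical in
/-- A choice of the conditional law. -/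
noncomputable def Qf (Ω : Opens ℂ) (φ : ℂ → ℂ) (s : ℝ) (Γ : C(unitInterval, ℂ)) : Measure (Di Ω) :=
  if h : ∃ Q : Measure (Di Ω), Cnd φ s Γ Q then h.choose else 0

variable {Ω : Opens ℂ} {φ : ℂ → ℂ} {δ : ℕ → ℝ} {N k : ℕ → ℕ} {p : ∀ n, ZMod (N n) → ℤ × ℤ}
  {S : ℕ → Finset Final.Tri} {φn gn : ℕ → ℂ → ℂ} {s : ℝ}

theorem Cnd.eq {Γ : C(unitInterval, ℂ)} {Q : Measure (Di Ω)} (h : Cnd φ s Γ Q) :
    Qf Ω φ s Γ = Q := by
  have hex : ∃ Q : Measure (Di Ω), Cnd φ s Γ Q := ⟨Q, h⟩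
  rw [Qf, dif_pos hex]
  exact P153D.uni Ω _ _ hex.choose_spec.1 h.1 fun f => (hex.choose_spec.2 f).trans (h.2 f).symm

/-- The conditional laws along a convergent sequence of interfaces. -/
theorem det_cond (h : LS Ω φ δ N k p S φn gn) (hs : s = 1 ∨ s = -1)
    (hsg : ∀ᶠ n in atTop, (DRV.sg (p n) (S n) : ℝ) = -s) {X : ℕ → Hg → Di Ω}
    (hX : ∀ n g (f : Te Ω), X n g f = Final.fld (S n) (δ n) (f ∘ e.symm) g) {g : ℕ → Hg}
    (hg : ∀ n, g n ∈ Heights (p n) (k n) (S n)) {x y : ℕ → C(unitInterval, ℂ)}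
    (hx : ∀ n, IsInterface (p n) (k n) (S n) (δ n) (g n) (x n))
    (hy : ∀ n t, y n t = gn n (x n t)) {Γ G : C(unitInterval, ℂ)} (hΓ : Chord Γ)
    (h0 : volume (φ '' range Γ) = 0) (ly : Tendsto y atTop (𝓝 Γ)) (lx : Tendsto x atTop (𝓝 G))
    {Ψ : C(unitInterval, ℂ) × Di Ω → ℝ} (hΨ : Continuous Ψ) {M : ℝ} (hM : ∀ q, |Ψ q| ≤ M) :
    Cnd φ s Γ (Qf Ω φ s Γ) ∧ Tendsto (fun n => Ex (CA (FF (p n) (S n) (sh (p n) (S n) (g n)))
      (WM (p n) (k n) (S n) (sh (p n) (S n) (g n)))) fun g' => Ψ (x n, X n (bk (p n) (S n) g')))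
      atTop (𝓝 (∫ T, Ψ (G, T) ∂(Qf Ω φ s Γ))) := by
  obtain ⟨R, hR0, hR, hR'⟩ := bound h
  have hF := fill h (fun n => dsk_of h (hg n) (hx n) (hy n)) ly hΓ hR hR'
  have h1 : volume (dm Ω \ (dm (φ '' Sd Γ Complex.I) ∪ dm (φ '' Sd Γ (-Complex.I)))) = 0 := by
    refine measure_mono_null (t := Complex.measurableEquivRealProd.symm ⁻¹' (φ '' range Γ)) ?_ ?_
    · rintro z ⟨hz, hz'⟩
      obtain ⟨w, hw, he⟩ : OBSV.tc z ∈ φ '' ball 0 1 := h.ds.conf.img.symm ▸ hz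
      refine ⟨w, by_contra fun hc => hz' ?_, he⟩
      rcases (Sd_cover hΓ).symm ▸ (show w ∈ ball (0 : ℂ) 1 \ range Γ from ⟨hw, hc⟩) with h2 | h2
      · exact Or.inl ⟨w, h2, he⟩
      · exact Or.inr ⟨w, h2, he⟩
    · rw [(Complex.volume_preserving_equiv_real_prod.symm _).measure_preimage_equiv, h0]
  have hu := fun n => FLDI.unif_spec (INTF.CA_finite (M := WM (p n) (k n) (S n)
    (sh (p n) (S n) (g n))) (hF.adm n).arcs.fin) (OBSV.CA_nonempty _ _)
  obtain ⟨Q, q1, q2, q3⟩ := P153D.exists_lim P153D.fer (X := fun n g' => X n (bk (p n) (S n) g'))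
    (fun n => P153D.unif_aem (hu n).1 _) fun f => by
      simp only [hX]
      exact hF.near h.toLD hR0 hR hR' hs hsg h1
        (N153.dm_eq Ω ▸ (H212.testOn_iff Ω f).1 (P153D.test_on f))
  have hc : Cnd φ s Γ Q := ⟨q1, q2⟩
  rw [hc.eq]
  exact ⟨hc, (joint_lim (fun n => (hu n).2.1) q3 lx hΨ hM).congr fun n => (hu n).2.2 _⟩

theorem div_lt {a b : ℝ} (hab : a < b) (hb : b < 1) : a / (1 - a) < b / (1 - b) := by
  rw [div_lt_div_iff₀ (by linarith) (by linarith)]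
  linarith

theorem chord_of {G : C(unitInterval, ℂ)} {w : C(ℝ≥0, ℝ)} (h : Gr cay 1 G w) (h0 : w 0 = 0) :
    Chord G := by
  obtain ⟨h1, γ, hγ, h2⟩ := h
  have hs : γ 0 = 0 := by rw [hγ.start, Real.toNNReal_zero, h0, Complex.ofReal_zero]
  have hn : ∀ t : unitInterval, (t : ℝ) < 1 → 0 ≤ (t : ℝ) / (1 - t) := fun t ht =>
    div_nonneg t.2.1 (by linarith)
  have him : ∀ t : ℝ, 0 ≤ t → 0 ≤ (γ t).im := fun t ht => by
    rcases ht.lt_or_eq with h3 | h3
    · exact (hγ.im_pos t h3).le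
    · rw [← h3, hs, Complex.zero_im]
  have hc : ∀ t : unitInterval, (t : ℝ) < 1 ∨ t = 1 := fun t =>
    (show (t : ℝ) ≤ 1 from t.2.2).lt_or_eq.imp_right Subtype.ext
  refine ⟨⟨?_, h1, fun t => ?_⟩, fun a b hab => ?_, fun t t0 t1 => ?_⟩
  · rw [h2 0 (by simp)]
    simp [hs, cay_zero]
  · rcases hc t with h3 | rfl
    · rw [h2 t h3]
      exact norm_cay_le (him _ (hn t h3))
    · rw [h1, norm_one]
  · rcases hc a with ha | rfl <;> rcases hc b with hb | rfl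
    · rw [h2 a ha, h2 b hb] at hab
      have h3 := hγ.inj (hn a ha) (hn b hb) (cay_inj (him _ (hn a ha)) (him _ (hn b hb)) hab)
      rcases lt_trichotomy (a : ℝ) b with h4 | h4 | h4
      · exact absurd h3 (div_lt h4 hb).ne
      · exact Subtype.ext h4
      · exact absurd h3 (div_lt h4 ha).ne'
    · rw [h2 a ha, h1] at hab
      exact absurd hab (cay_ne (him _ (hn a ha)))
    · rw [h2 b hb, h1] at hab
      exact absurd hab.symm (cay_ne (him _ (hn b hb)))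
    · rfl
  · have h3 := (hc t).resolve_right t1
    rw [h2 t h3]
    exact norm_cay_lt (hγ.im_pos _ (div_pos (unitInterval.pos_iff_ne_zero.2 t0) (by linarith)))

variable [MeasurableSpace C(unitInterval, ℂ)] [BorelSpace C(unitInterval, ℂ)]
  [MeasurableSpace C(ℝ≥0, ℝ)] [BorelSpace C(ℝ≥0, ℝ)] {lam : Measure C(ℝ≥0, ℝ)}
  {f : C(ℝ≥0, ℝ) → C(unitInterval, ℂ)}

/-- The limit curve is a chord of area zero. -/
theorem area {D : Set ℂ} (hc : R1.CConf φ D) (hlam : IsDrvLaw lam) (hf : Measurable f)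
    (hG : ∀ᵐ w ∂lam, Gr cay 1 (f w) w) :
    ∀ᵐ w ∂lam, Chord (f w) ∧ volume (φ '' range (f w)) = 0 := by
  have := hlam.prob
  have h1 : ∀ᵐ w ∂lam, Chord (f w) := by
    filter_upwards [hG, hlam.eval_zero_ae_eq_zero] with w a1 a2
    exact chord_of a1 (by linarith)
  have hcl : IsClosed {q : C(unitInterval, ℂ) × ℂ | q.2 ∈ range q.1} := by
    have h2 : IsClosed {r : (C(unitInterval, ℂ) × ℂ) × unitInterval | r.1.1 r.2 = r.1.2} :=
      isClosed_eq (by fun_prop) (by fun_prop)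
    convert isClosedMap_fst_of_compactSpace _ h2 using 1
    ext q
    exact ⟨fun ⟨t, ht⟩ => ⟨(q, t), ht, rfl⟩, by rintro ⟨r, hr, rfl⟩; exact ⟨r.2, hr⟩⟩
  have hm : MeasurableSet {q : C(ℝ≥0, ℝ) × ℂ | ‖q.2‖ < 1 → q.2 ∉ range (f q.1)} :=
    (measurableSet_lt (by fun_prop) measurable_const).imp
      (hcl.measurableSet.preimage ((hf.comp measurable_fst).prodMk measurable_snd)).compl
  have h2 : ∀ᵐ w ∂lam, ∀ᵐ z : ℂ, ‖z‖ < 1 → z ∉ range (f w) := by
    refine (Measure.ae_ae_comm hm).2 (ae_of_all _ fun z => ?_)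
    by_cases hz : ‖z‖ < 1
    · have h3 := R1.imb_im_pos norm_one hI hz
      have h4 := (R1.mb_imb norm_one hI (show z ≠ 1 by rintro rfl; simp at hz)).2
      filter_upwards [hG, h1, BESS.alive_half (P := lam) (W := fun w t => w t.toNNReal)
        ⟨fun t w => w t / 2, hlam, Eventually.of_forall fun w t ht => by ring⟩ h3] with w
        ⟨_, γ, hγ, a1⟩ a2 a3 _ ⟨t, ht⟩
      have t0 : t ≠ 0 := by rintro rfl; rw [← ht, a2.zero] at hz; simp at hz
      have t1 : (t : ℝ) < 1 := unitInterval.lt_one_iff_ne_one.2 (by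
        rintro rfl; rw [← ht, a2.one] at hz; simp at hz)
      have t2 : 0 < (t : ℝ) / (1 - t) := div_pos (unitInterval.pos_iff_ne_zero.2 t0) (by linarith)
      have a4 : R1.imb 1 Complex.I z ∈ Final.loewnerDomain (fun t => w t.toNNReal) (t / (1 - t)) :=
        a3 _
      rw [hγ.domain_eq _ t2.le] at a4
      exact a4.2 ⟨_, ⟨t2, le_rfl⟩, cay_inj (hγ.im_pos _ t2).le h3.le
        (((a1 t t1).symm.trans ht).trans h4.symm)⟩
    · exact ae_of_all _ fun w h => absurd h hz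
  filter_upwards [h1, h2] with w a1 a2
  refine ⟨a1, measure_mono_null (t := φ '' (ball 0 1 ∩ range (f w)) ∪ {φ (f w 0), φ (f w 1)}) ?_
    (measure_union_null ?_ ((toFinite _).measure_zero _))⟩
  · rintro _ ⟨_, ⟨t, rfl⟩, rfl⟩
    by_cases t0 : t = 0
    · exact Or.inr (Or.inl (by rw [t0]))
    by_cases t1 : t = 1
    · exact Or.inr (Or.inr (by rw [t1]; rfl))
    · exact Or.inl ⟨_, ⟨mem_ob.2 (a1.lt t t0 t1), t, rfl⟩, rfl⟩
  · refine addHaar_image_eq_zero_of_differentiableOn_of_addHaar_eq_zero volume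
      ((hc.diff.restrictScalars ℝ).mono inter_subset_left) (measure_mono_null ?_ a2)
    exact fun z hz hc => hc (mem_ob.1 hz.1) hz.2

/-- The joint subsequential limits. -/
theorem sub_cond (hdrv : T_drv) (hcross : T_cross) (hend : T_end) (hlam : IsDrvLaw lam)
    (hf : Measurable f) (hG : ∀ᵐ w ∂lam, Gr cay 1 (f w) w) (h : LS Ω φ δ N k p S φn gn)
    (hs : s = 1 ∨ s = -1) (hsg : ∀ᶠ n in atTop, (DRV.sg (p n) (S n) : ℝ) = -s)
    {X : ℕ → Hg → Di Ω} (hX : ∀ n g (f : Te Ω), X n g f = Final.fld (S n) (δ n) (f ∘ e.symm) g)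
    {Ψ : C(unitInterval, ℂ) × Di Ω → ℝ} (hΨ : Continuous Ψ) {M : ℝ} (hM : ∀ q, |Ψ q| ≤ M) :
    (∀ᵐ w ∂lam, Cnd φ s (f w) (Qf Ω φ s (f w))) ∧
    AEMeasurable (fun w => ∫ T, Ψ ((extC h.ds.conf).comp (f w), T) ∂(Qf Ω φ s (f w))) lam ∧
    ∃ θ : ℕ → ℕ, ∀ c, Itf δ N k p S c → (∀ T, Inv fun x => Ψ (x, T)) →
      Tendsto (fun n => mean (law (p (θ n)) (k (θ n)) (S (θ n))) fun g =>
        Ψ (c (θ n) g, X (θ n) g)) atTop
        (𝓝 (∫ w, ∫ T, Ψ ((extC h.ds.conf).comp (f w), T) ∂(Qf Ω φ s (f w)) ∂lam)) := by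
  classical
  obtain ⟨θ, hθ, ν, hν, Y, y1, y2, y3, y4⟩ := sub_joint hdrv hcross hend h
  set L : C(ℝ≥0, ℝ) → ℝ := fun w => ∫ T, Ψ ((extC h.ds.conf).comp (f w), T) ∂(Qf Ω φ s (f w))
    with hL
  have hm : Measurable fun q : (C(unitInterval, ℂ) × C(ℝ≥0, ℝ)) ×
      (C(unitInterval, ℂ) × C(unitInterval, ℂ)) => q.1.2 := measurable_snd.comp measurable_fst
  have e1 : (ν.map fun q => q.1.2) = lam := drv_unique y1 hlam
  have hfin := fun n => i_fin (N n) (k n) (p n) (S n) (h.poly n) (h.encl n)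
  have hsc : ∀ n, Countable (Heights (p n) (k n) (S n)) := fun n => (hfin n).1.countable
  let Z : ∀ n, Heights (p (θ n)) (k (θ n)) (S (θ n)) → ℝ := fun n ω =>
    Ex (CA (FF (p (θ n)) (S (θ n)) (sh (p (θ n)) (S (θ n)) ω))
      (WM (p (θ n)) (k (θ n)) (S (θ n)) (sh (p (θ n)) (S (θ n)) ω))) fun g =>
        Ψ ((Y n ω).2.2, X (θ n) (bk (p (θ n)) (S (θ n)) g))
  have hM0 : 0 ≤ M := (abs_nonneg _).trans (hM (0, 0))
  have hZ : ∀ n ω, |Z n ω| ≤ M := fun n ω =>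
    (abs_Ex_le _).trans (Ex_le_const hM0 fun g _ => hM _)
  have hdet : ∀ᵐ q ∂ν, ∀ κ : ℕ → ℕ, StrictMono κ →
      ∀ ω : ∀ j, Heights (p (θ (κ j))) (k (θ (κ j))) (S (θ (κ j))),
      Tendsto (fun j => Y (κ j) (ω j)) atTop (𝓝 q) → Cnd φ s (f q.1.2) (Qf Ω φ s (f q.1.2)) ∧
        Tendsto (fun j => Z (κ j) (ω j)) atTop (𝓝 (L q.1.2)) := by
    have h1 := hG.and (area h.ds.conf hlam hf hG)
    rw [← e1] at h1
    filter_upwards [y2, ae_of_ae_map hm.aemeasurable h1] with q ⟨a1, a2⟩ ⟨a3, a4, a5⟩ κ hκ ω hl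
    have hθκ : Tendsto (fun j => θ (κ j)) atTop atTop := hθ.tendsto_atTop.comp hκ.tendsto_atTop
    rw [a1.unique a3] at a2
    exact det_cond (h.sub hθκ) hs (hθκ.eventually hsg) (X := fun j => X (θ (κ j)))
      (fun j => hX _) (fun j => (ω j).2) (fun j => (y3 _ (ω j)).1) (fun j => (y3 _ (ω j)).2) a4 a5
      (a1.unique a3 ▸ ((continuous_fst.comp continuous_snd).tendsto q).comp hl)
      (a2 ▸ ((continuous_snd.comp continuous_snd).tendsto q).comp hl) hΨ hM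
  have : PolishSpace (C(unitInterval, ℂ) × C(unitInterval, ℂ)) := polish_prod
  have : PolishSpace ((C(unitInterval, ℂ) × C(ℝ≥0, ℝ)) ×
    (C(unitInterval, ℂ) × C(unitInterval, ℂ))) := polish_prod
  obtain ⟨ν', hν', b1, b2, b3⟩ := ecm_polish (fun n => Heights (p (θ n)) (k (θ n)) (S (θ n)))
    (fun n => uniformOn univ) (fun n => prob_uniformOn _ (hfin _).1 (hfin _).2) Y
    (fun n => measurable_of_countable _) Z (fun n => measurable_of_countable _) ν y4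
    (hdet.mono fun q hq => ⟨_, fun κ hκ ω hl => (hq κ hκ ω hl).2⟩)
  have b4 : ∀ᵐ r ∂ν', (r.2 = L r.1.1.2 ∧ Cnd φ s (f r.1.1.2) (Qf Ω φ s (f r.1.1.2))) ∧
      |r.2| ≤ M := by
    rw [← b1] at hdet
    filter_upwards [b2, ae_of_ae_map measurable_fst.aemeasurable hdet] with r ⟨κ, hκ, ω, l1, l2⟩ hq
    exact ⟨⟨tendsto_nhds_unique l2 (hq κ hκ ω l1).2, (hq κ hκ ω l1).1⟩,
      le_of_tendsto' l2.abs fun j => hZ _ _⟩
  let u : ((C(unitInterval, ℂ) × C(ℝ≥0, ℝ)) × (C(unitInterval, ℂ) × C(unitInterval, ℂ))) × ℝ →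
      C(ℝ≥0, ℝ) × (((C(unitInterval, ℂ) × C(ℝ≥0, ℝ)) ×
        (C(unitInterval, ℂ) × C(unitInterval, ℂ))) × ℝ) := fun r => (r.1.1.2, r)
  have hu : Continuous u := by fun_prop
  have : PolishSpace (((C(unitInterval, ℂ) × C(ℝ≥0, ℝ)) ×
    (C(unitInterval, ℂ) × C(unitInterval, ℂ))) × ℝ) := polish_prod
  have hemb : MeasurableEmbedding u := hu.measurableEmbedding fun q q' hq => (Prod.ext_iff.1 hq).2
  have hρ : IsProbabilityMeasure (ν'.map u) :=
    Measure.isProbabilityMeasure_map hu.measurable.aemeasurable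
  obtain ⟨F, f1, f2, -⟩ := graph_fun (ν'.map u) (fun r => r.2) measurable_snd
    (fun x w => x = L w ∧ Cnd φ s (f w) (Qf Ω φ s (f w))) (fun x x' w a a' => a.1.trans a'.1.symm)
    (hemb.ae_map_iff.2 (b4.mono fun r hr => hr.1))
  have e2 : (ν'.map fun r => r.1.1.2) = lam := by
    rw [← e1, ← b1, Measure.map_map hm measurable_fst]
    rfl
  have e3 : (ν'.map u).fst = lam := by
    rw [← e2, Measure.fst, Measure.map_map measurable_fst hu.measurable]
    rfl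
  rw [e3] at f2
  have hLm : AEMeasurable L lam := ⟨F, f1, f2.mono fun w hw => hw.1.symm⟩
  refine ⟨f2.mono fun w hw => hw.2, hLm, θ, fun c hc hI => ?_⟩
  have cl : ∀ x : ℝ, |x| ≤ M → max (-M) (min M x) = x := fun x hx => by
    rw [min_eq_right (abs_le.1 hx).2, max_eq_right (abs_le.1 hx).1]
  have h5 := b3 (fun r => max (-M) (min M r.2)) (by fun_prop) ⟨M, fun r =>
    abs_le.2 ⟨le_max_left _ _, max_le (by linarith) (min_le_left _ _)⟩⟩
  have e4 : ∫ r, max (-M) (min M r.2) ∂ν' = ∫ w, L w ∂lam := by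
    rw [← e2] at hLm ⊢
    exact (integral_congr_ae (b4.mono fun r hr => (cl _ hr.2).trans hr.1.1)).trans
      (integral_map (hm.comp measurable_fst).aemeasurable hLm.aestronglyMeasurable).symm
  rw [e4] at h5
  refine h5.congr fun n => ?_
  rw [cond_eq (h.pos _) (h.kpos _) (h.klt _) (h.poly _) (h.encl _) (hc _) (fun ω => (y3 n ω).1)
    (G := fun y g => Ψ (y, X (θ n) g)) fun g => hI _]
  exact integral_congr_ae (Eventually.of_forall fun ω => cl _ (hZ n ω))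

/-- **The joint limit.** -/
theorem conv_joint (hdrv : T_drv) (hcross : T_cross) (hend : T_end) (hlam : IsDrvLaw lam)
    (hf : Measurable f) (hG : ∀ᵐ w ∂lam, Gr cay 1 (f w) w) (h : LS Ω φ δ N k p S φn gn)
    (hs : s = 1 ∨ s = -1) (hsg : ∀ᶠ n in atTop, (DRV.sg (p n) (S n) : ℝ) = -s)
    {X : ℕ → Hg → Di Ω} (hX : ∀ n g (f : Te Ω), X n g f = Final.fld (S n) (δ n) (f ∘ e.symm) g)
    {Ψ : C(unitInterval, ℂ) × Di Ω → ℝ} (hΨ : Continuous Ψ) {M : ℝ} (hM : ∀ q, |Ψ q| ≤ M)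
    {c : ℕ → Hg → C(unitInterval, ℂ)} (hc : Itf δ N k p S c) (hI : ∀ T, Inv fun x => Ψ (x, T)) :
    Tendsto (fun n => mean (law (p n) (k n) (S n)) fun g => Ψ (c n g, X n g)) atTop
      (𝓝 (∫ w, ∫ T, Ψ ((extC h.ds.conf).comp (f w), T) ∂(Qf Ω φ s (f w)) ∂lam)) := by
  refine tendsto_of_subseq_tendsto fun ns hns => ?_
  obtain ⟨-, -, θ, h1⟩ := sub_cond hdrv hcross hend hlam hf hG (h.sub hns) hs (hns.eventually hsg)
    (X := fun n => X (ns n)) (fun n => hX _) hΨ hM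
  exact ⟨θ, h1 (fun n => c (ns n)) (fun n => hc _) hI⟩

end Vale.Agent.N153J
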