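import Vale.Agent.N153J.Gau

/-!
N153J: the lattice domains on the two sides of the interface.
-/

set_option autoImplicit false
set_option linter.unusedVariables false

namespace Vale.Agent.N153J

open Filter Topology Set Metric MeasureTheory
open Vale.Agent.P145.PT Vale.Agent.P153 Vale.Agent.P153.F.Top Vale.Agent.P153.R2
open Vale.Agent.P153.Topo (Conn)
open Vale.Agent.P153.R2.INTF (CA PP HH Face Fk Lk Rk Arcs Ok Pm run fa ah EE)
open Vale.Agent.P153.R2.OBSV (rd tc tp dm PP_eq)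
open Vale.Agent.P153.R2.Final (IsPolygon Encloses Heights IsInterface mid)
open Vale.Agent.P153.R2.FLDI (inn)
open Vale.Agent.P153.R2.POLY (DC)
open Vale.Agent.P153.R2.DRV (Cs st nu ru pl Pn Mn sh)
open Vale.Agent.N153 (LS LD mem_cb mem_ob face_sub face_diam face_convex fa_mem)

/-- The free vertices after the whole interface. -/
noncomputable def FF {n : ℕ} (p : ZMod n → ℤ × ℤ) (S : Finset Final.Tri) (g : Hg) : Set Pt :=
  Fk (inn p S) g S (st p S) (nu p S g)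

/-- The wall `+1` after the whole interface. -/
noncomputable def WP {n : ℕ} (p : ZMod n → ℤ × ℤ) (k : ℕ) (S : Finset Final.Tri) (g : Hg) :
    Set Pt := Pn p k S ∪ Lk g S (st p S) (nu p S g)

/-- The wall `-1` after the whole interface. -/
noncomputable def WM {n : ℕ} (p : ZMod n → ℤ × ℤ) (k : ℕ) (S : Finset Final.Tri) (g : Hg) :
    Set Pt := Mn p k S ∪ Rk g S (st p S) (nu p S g)

/-- The trace of the interface. -/
noncomputable def tr (δ : ℝ) {n : ℕ} (p : ZMod n → ℤ × ℤ) (S : Finset Final.Tri) (g : Hg) :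
    Set ℂ := pl δ (ru p S g) '' Icc 0 (nu p S g : ℝ)

/-- One lattice domain. -/
structure One (δ : ℝ) {n : ℕ} (p : ZMod n → ℤ × ℤ) (k : ℕ) (S : Finset Final.Tri) (g : Hg) :
    Prop where
  pos : 0 < δ
  poly : IsPolygon p
  encl : Encloses p S
  kpos : 0 < k
  klt : k < n
  mem : g ∈ Cs p k S

section One

variable {n k : ℕ} {p : ZMod n → ℤ × ℤ} {S : Finset Final.Tri} {δ : ℝ} {g : Hg}

theorem One.ok (h : One δ p k S g) : Ok g S (st p S) (nu p S g) :=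
  (INTF.expl_poly h.poly h.encl h.kpos h.klt h.mem le_rfl).ok

theorem One.arcs (h : One δ p k S g) : Arcs (FF p S g) (WP p k S g) (WM p k S g) := by
  obtain ⟨m1, m2⟩ := INTF.st_mem (S := S) h.poly h.kpos h.klt
  exact (INTF.arcs_poly h.poly h.encl h.kpos h.klt).run h.mem (INTF.st_adj h.poly) m1 m2 _

theorem One.face (h : One δ p k S g) {x : ℂ} (hx : x ∈ tr δ p S g) :
    ∃ j < nu p S g, x ∈ Face δ (fa (run g S (st p S) j)) ∧
      ∀ g', Pm g' g S (st p S) (nu p S g) → HH g' δ x = 0 := by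
  have h0 := INTF.nu_pos h.poly h.encl h.kpos h.klt h.mem
  have h1 : x ∈ INTF.Gam δ g S (st p S) (nu p S g) := by
    obtain ⟨t, ht, rfl⟩ := hx
    rcases ht.1.eq_or_lt with h2 | h2
    · refine ⟨0, h0, ?_⟩
      have e := DRV.pl_nat (δ := δ) (ρ := ru p S g) 0
      rw [Nat.cast_zero] at e
      rw [← h2, e, INTF.EE_mid]
      exact left_mem_segment ℝ _ _
    · exact INTF.pl_mem_Gam ⟨h2, ht.2⟩
  obtain ⟨j, hj, hz⟩ := id h1
  exact ⟨j, hj, (h.ok.seg h.pos h.ok.pm hj (by simp) hz).1,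
    fun g' hg' => h.ok.gam_zero h.pos hg' h1⟩

theorem One.clos (h : One δ p k S g) {x : ℂ} (hx : x ∈ tr δ p S g) : x ∈ closure (DC δ S) := by
  obtain ⟨j, hj, h1, -⟩ := h.face hx
  exact face_sub h.pos (h.ok.mem hj) h1

theorem One.near (h : One δ p k S g) {v : Pt}
    (hv : v ∈ Lk g S (st p S) (nu p S g) ∪ Rk g S (st p S) (nu p S g)) :
    ∃ x ∈ tr δ p S g, dist x (PP δ v) ≤ δ := by
  have key : ∀ j ≤ nu p S g, ∃ x ∈ tr δ p S g, x ∈ Face δ (fa (run g S (st p S) j)) := by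
    intro j hj
    refine ⟨_, ⟨j, ⟨Nat.cast_nonneg j, by exact_mod_cast hj⟩, rfl⟩, ?_⟩
    rw [DRV.pl_nat, ← INTF.EE_mid]
    exact (INTF.EE_face (g := g) h.pos (INTF.corner1 (h.ok.adj j)) (INTF.corner2 (h.ok.adj j))
      (by simp)).1
  rcases hv with ⟨j, hj, rfl⟩ | ⟨j, hj, rfl⟩
  · obtain ⟨x, h1, h2⟩ := key j hj
    exact ⟨x, h1, face_diam h.pos h2 (INTF.face_of_corner h.pos (INTF.corner1 (h.ok.adj j)))⟩
  · obtain ⟨x, h1, h2⟩ := key j hj
    exact ⟨x, h1, face_diam h.pos h2 (INTF.face_of_corner h.pos (INTF.corner2 (h.ok.adj j)))⟩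

theorem exists_out (hδ : 0 < δ) (hS : Encloses p S) {z : ℂ} (hz : z ∉ DC δ S) :
    ∃ v ∉ inn p S, dist (PP δ v) z ≤ δ := by
  rw [POLY.DC_eq_interior] at hz
  have h1 : ∃ t, z ∈ Face δ t ∧ t ∉ S := by
    by_contra hc
    push Not at hc
    exact hz (INTF.mem_interior hδ hc)
  obtain ⟨⟨v, b⟩, h2, h3⟩ := h1
  have h4 : v + (1, 0) ∈ F.Dom.corners (v, b) := by
    cases b
    · exact F.Dom.dl_cF.2 (Or.inr (Or.inl rfl))
    · exact F.Dom.dl_cT.2 (Or.inl rfl)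
  exact ⟨_, fun hc => h3 (INTF.inn_Inn hS hc _ h4),
    face_diam hδ (INTF.face_of_corner hδ h4) h2⟩

/-- The map to the disc and the image of the interface. -/
structure Dsk (δ : ℝ) {n : ℕ} (p : ZMod n → ℤ × ℤ) (k : ℕ) (S : Finset Final.Tri) (g : Hg)
    (G : ℂ → ℂ) (y : C(unitInterval, ℂ)) : Prop extends One δ p k S g where
  cont : ContinuousOn G (closure (DC δ S))
  inj : InjOn G (closure (DC δ S))
  le : ∀ x ∈ closure (DC δ S), ‖G x‖ ≤ 1
  bd : ∀ i, ‖G (PP δ (p i))‖ = 1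
  sM : ∀ v ∈ Mn p k S, (G (PP δ v)).im < 0
  sP : ∀ v ∈ Pn p k S, 0 < (G (PP δ v)).im
  crs : Crs y
  rng : range y = G '' tr δ p S g

variable {G : ℂ → ℂ} {y : C(unitInterval, ℂ)}

theorem Dsk.edge (h : Dsk δ p k S g G y) {g' : Hg} (hg : Pm g' g S (st p S) (nu p S g))
    {t : Final.Tri} (ht : t ∈ S) {v w : Pt} (hv : v ∈ F.Dom.corners t) (hw : w ∈ F.Dom.corners t)
    (h0 : g' v ≠ 0) (he : g' w = g' v) : Jn y (G (PP δ v)) (G (PP δ w)) := by
  have f1 := INTF.face_of_corner h.pos hv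
  have f2 := INTF.face_of_corner h.pos hw
  have hs : segment ℝ (PP δ v) (PP δ w) ⊆ closure (DC δ S) :=
    ((face_convex δ t).segment_subset f1 f2).trans (face_sub h.pos ht)
  refine jn_of ((convex_segment _ _).isPreconnected.image G (h.cont.mono hs)) ?_
    (mem_image_of_mem _ (left_mem_segment ℝ _ _)) (mem_image_of_mem _ (right_mem_segment ℝ _ _))
  rintro _ ⟨z, hz, rfl⟩
  refine ⟨mem_cb.2 (h.le z (hs hz)), fun hc => ?_⟩
  rw [h.rng] at hc
  obtain ⟨x, hx, he'⟩ := hc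
  obtain ⟨j, -, -, h1⟩ := h.face hx
  have h2 := h1 g' hg
  rw [h.inj (h.clos hx) (hs hz) he'] at h2
  obtain ⟨a, b, ha, hb, hab, rfl⟩ := INTF.mem_seg.1 hz
  rw [(INTF.HH_comb g' f1 f2 ha hb hab).2, INTF.HH_PP _ h.pos, INTF.HH_PP _ h.pos, he, ← add_mul,
    hab, one_mul] at h2
  exact h0 (by exact_mod_cast h2)

theorem Dsk.chain (h : Dsk δ p k S g G y) {ζ : ℂ} {j : ℕ} (hj : j ≤ nu p S g) :
    (Jn y (G (PP δ (run g S (st p S) j).1)) ζ → Jn y (G (PP δ (st p S).1)) ζ) ∧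
    (Jn y (G (PP δ (run g S (st p S) j).2)) ζ → Jn y (G (PP δ (st p S).2)) ζ) := by
  induction j with
  | zero => exact ⟨id, id⟩
  | succ j ih =>
    obtain ⟨i1, i2⟩ := ih (by omega)
    have ho := h.ok
    have ha := ho.adj j
    obtain ⟨a1, a2⟩ := ho.pm j (by omega)
    obtain ⟨b1, b2⟩ := ho.pm (j + 1) hj
    rcases ho.next (show j < nu p S g by omega) with e | e <;> rw [e] at b1 b2 ⊢
    · exact ⟨fun hc => i1 ((h.edge ho.pm (ho.mem hj) (INTF.corner1 ha) (INTF.corner3 ha)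
        (by rw [a1]; norm_num) (b1.trans a1.symm)).trans hc), i2⟩
    · exact ⟨i1, fun hc => i2 ((h.edge ho.pm (ho.mem hj) (INTF.corner2 ha) (INTF.corner3 ha)
        (by rw [a2]; norm_num) (b2.trans a2.symm)).trans hc)⟩

theorem Dsk.wallM (h : Dsk δ p k S g G y) {b : Pt} (hb : b ∈ WM p k S g) :
    g b = -1 ∧ ¬ Jn y (G (PP δ b)) Complex.I := by
  have key : ∀ v ∈ Mn p k S, ¬ Jn y (G (PP δ v)) Complex.I := by
    intro v hv hc
    obtain ⟨i, rfl⟩ := INTF.Mn_sub hv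
    exact cross h.crs (by simp) (by simp) (h.bd i) (h.sM _ hv) hc.symm
  rcases hb with hb | ⟨j, hj, rfl⟩
  · exact ⟨(INTF.val_poly h.poly h.encl h.kpos h.klt h.mem).2 hb, key b hb⟩
  · exact ⟨(h.ok.pm j hj).2, fun hc => key _ (INTF.st_mem h.poly h.kpos h.klt).2
      ((h.chain hj).2 hc)⟩

theorem Dsk.wallP (h : Dsk δ p k S g G y) {b : Pt} (hb : b ∈ WP p k S g) :
    g b = 1 ∧ ¬ Jn y (G (PP δ b)) (-Complex.I) := by
  have key : ∀ v ∈ Pn p k S, ¬ Jn y (G (PP δ v)) (-Complex.I) := by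
    intro v hv hc
    obtain ⟨i, rfl⟩ := INTF.Pn_sub hv
    exact cross h.crs (h.bd i) (h.sP _ hv) (by simp) (by simp) hc
  rcases hb with hb | ⟨j, hj, rfl⟩
  · exact ⟨(INTF.val_poly h.poly h.encl h.kpos h.klt h.mem).1 hb, key b hb⟩
  · exact ⟨(h.ok.pm j hj).1, fun hc => key _ (INTF.st_mem h.poly h.kpos h.klt).1
      ((h.chain hj).1 hc)⟩

/-- **Visibility.** -/
theorem Dsk.vis (h : Dsk δ p k S g G y) {c : ℤ} (hc : c ≠ 0) {X : Set Pt} {ζ : ℂ}
    (hd : Disjoint (FF p S g) X) (hX : ∀ b ∈ X, g b = c ∧ ¬ Jn y (G (PP δ b)) ζ) {v : Pt}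
    (hv : Jn y (G (PP δ v)) ζ) : ∀ a, Conn (FF p S g) v a → ∀ b ∈ X, ¬ Adj a b := by
  classical
  set g' : Hg := fun u => if u ∈ FF p S g then c else g u with hg'
  have hpm : Pm g' g S (st p S) (nu p S g) := by
    intro j hj
    have n1 : (run g S (st p S) j).1 ∉ FF p S g := fun hc => hc.2 (Or.inl ⟨j, hj, rfl⟩)
    have n2 : (run g S (st p S) j).2 ∉ FF p S g := fun hc => hc.2 (Or.inr ⟨j, hj, rfl⟩)
    simp only [hg', if_neg n1, if_neg n2]
    exact h.ok.pm j hj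
  have step : ∀ u ∈ FF p S g, ∀ w, Adj u w → g' w = c → Jn y (G (PP δ u)) ζ →
      Jn y (G (PP δ w)) ζ := by
    intro u hu w huw hw hj
    have e : g' u = c := if_pos hu
    exact (h.edge hpm (fa_mem h.encl hu.1 huw) (INTF.corner1 (s := (u, w)) huw)
      (INTF.corner2 (s := (u, w)) huw) (by rw [e]; exact hc) (hw.trans e.symm)).symm.trans hj
  intro a ha b hb hab
  refine (hX b hb).2 (step a ha.right_mem b hab ?_ ?_)
  · exact (if_neg (Set.disjoint_right.1 hd hb)).trans (hX b hb).1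
  · exact ha.ind (fun u => Jn y (G (PP δ u)) ζ) hv fun u w h1 h2 h3 h4 =>
      step u h1.right_mem w h2 (if_pos h3) h4

end One

theorem dist_tc (a b : ℝ × ℝ) : dist a b ≤ dist (tc a) (tc b) := by
  rw [dist_eq_norm, dist_eq_norm, Prod.norm_def, max_le_iff, Real.norm_eq_abs, Real.norm_eq_abs]
  exact ⟨Complex.abs_re_le_norm (tc a - tc b), Complex.abs_im_le_norm (tc a - tc b)⟩

theorem norm_tc (a : ℝ × ℝ) : ‖a‖ ≤ ‖tc a‖ := by
  rw [Prod.norm_def, max_le_iff, Real.norm_eq_abs, Real.norm_eq_abs]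
  exact ⟨Complex.abs_re_le_norm (tc a), Complex.abs_im_le_norm (tc a)⟩

variable {D : Set ℂ} {φ : ℂ → ℂ} {δ : ℕ → ℝ} {N k : ℕ → ℕ} {p : ∀ n, ZMod (N n) → ℤ × ℤ}
  {S : ℕ → Finset Final.Tri} {φn gn : ℕ → ℂ → ℂ}

theorem one_of (h : LS D φ δ N k p S φn gn) {n : ℕ} {g : Hg} (hg : g ∈ Cs (p n) (k n) (S n)) :
    One (δ n) (p n) (k n) (S n) g := ⟨h.pos n, h.poly n, h.encl n, h.kpos n, h.klt n, hg⟩

theorem dsk_of (h : LS D φ δ N k p S φn gn) {n : ℕ} {g : Hg} (hg : g ∈ Heights (p n) (k n) (S n))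
    {x y : C(unitInterval, ℂ)} (hx : IsInterface (p n) (k n) (S n) (δ n) g x)
    (hy : ∀ t, y t = gn n (x t)) : Dsk (δ n) (p n) (k n) (S n) (sh (p n) (S n) g) (gn n) y := by
  obtain ⟨-, -, -, -, -, h1⟩ := POLY.s_can _ _ _ _ _ (h.pos n) (h.kpos n) (h.klt n) (h.poly n)
    (h.encl n) g hg
  obtain ⟨σ, s1, s2, s3, s4, s5⟩ := h1 x hx
  refine ⟨one_of h (DRV.sh_mem (h.poly n) (h.encl n) hg), h.ds.cont n, h.ds.injOn n,
    fun x hx => h.ds.norm_le n hx, h.norm_poly n, (h.side n).1, (h.side n).2,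
    ⟨?_, ?_, fun t => ?_⟩, ?_⟩
  · rw [hy, hx.2.1, h.gn_zero]
  · rw [hy, hx.2.2.1]
    exact h.gn_one n
  · rw [hy]
    exact h.ds.norm_le n (N153.intf_clos (h.pos n) hx t)
  · ext z
    constructor
    · rintro ⟨t, rfl⟩
      refine ⟨x t, ⟨σ t, ⟨?_, ?_⟩, (s5 t).symm⟩, (hy t).symm⟩
      · rw [← s3]
        exact s2.monotone t.2.1
      · rw [← s4]
        exact s2.monotone t.2.2
    · rintro ⟨_, ⟨τ, hτ, rfl⟩, rfl⟩
      rw [← s3, ← s4] at hτ
      obtain ⟨t, rfl⟩ := intermediate_value_univ 0 1 s1 hτ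
      exact ⟨t, by rw [hy, s5]⟩

theorem bound (h : LS D φ δ N k p S φn gn) :
    ∃ R > 0, (∀ n, ∀ x ∈ closure (DC (δ n) (S n)), ‖x‖ ≤ R) ∧ ∀ x ∈ D, ‖x‖ ≤ R := by
  obtain ⟨R, hR, hev⟩ := h.ds.bdd
  obtain ⟨m, hm⟩ := eventually_atTop.1 hev
  have h1 : Bornology.IsBounded (D ∪ ⋃ n ∈ Iio m, closure (DC (δ n) (S n))) :=
    h.ds.conf.isBounded.union ((Bornology.isBounded_biUnion (finite_Iio m)).2
      fun n _ => (h.ds.confn n).isBounded.closure)
  obtain ⟨R', hR'⟩ := h1.exists_norm_le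
  refine ⟨max R R', lt_max_of_lt_left hR, fun n x hx => ?_,
    fun x hx => (hR' x (Or.inl hx)).trans (le_max_right _ _)⟩
  rcases lt_or_ge n m with h2 | h2
  · exact (hR' x (Or.inr (mem_biUnion h2 hx))).trans (le_max_right _ _)
  · exact (hm n h2 x hx).le.trans (le_max_left _ _)

/-- **The two sides of the interface.** -/
theorem fill (h : LS D φ δ N k p S φn gn) {g : ℕ → Hg} {y : ℕ → C(unitInterval, ℂ)}
    {Γ : C(unitInterval, ℂ)} (hd : ∀ n, Dsk (δ n) (p n) (k n) (S n) (g n) (gn n) (y n))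
    (hy : Tendsto y atTop (𝓝 Γ)) (hΓ : Chord Γ) {R : ℝ}
    (hR : ∀ n, ∀ x ∈ closure (DC (δ n) (S n)), ‖x‖ ≤ R) (hR' : ∀ x ∈ D, ‖x‖ ≤ R) :
    Fill R δ (fun n => FF (p n) (S n) (g n)) (fun n => WP (p n) (k n) (S n) (g n))
      (fun n => WM (p n) (k n) (S n) (g n)) (dm (φ '' Sd Γ Complex.I))
      (dm (φ '' Sd Γ (-Complex.I))) := by
  have hc := h.ds.conf
  have hsb : ∀ ζ, Sd Γ ζ ⊆ ball 0 1 := fun ζ w hw => (Sd_sub Γ ζ hw).1
  have hW : dm (φ '' Sd Γ Complex.I) ∪ dm (φ '' Sd Γ (-Complex.I)) =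
      dm (φ '' (ball 0 1 \ range Γ)) := by
    rw [← Sd_cover hΓ, image_union]
    rfl
  have vis : ∀ ζ, ∀ x ∈ dm (φ '' Sd Γ ζ), ∀ᶠ n in atTop,
      Jn (y n) (gn n (PP (δ n) (rd (δ n) x))) ζ := by
    rintro ζ x ⟨w, hw, he⟩
    obtain ⟨ρ, hρ, h1⟩ := jn_ev hy hw.2
    obtain ⟨r, hr, h2⟩ := h.ds.ball_sub hw.1 hρ
    filter_upwards [h1, h2, h.small (half_pos hr)] with n a1 a2 a3
    have a4 := OBSV.norm_rd (h.pos n) (tc x)
    rw [OBSV.tp_tc] at a4
    obtain ⟨b1, b2⟩ := a2 (PP (δ n) (rd (δ n) x)) (by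
      rw [mem_ball, dist_eq_norm, he]
      linarith)
    exact a1 _ (h.ds.norm_lt n b1).le b2
  refine ⟨h.lim, fun n => ⟨h.pos n, (hd n).arcs, fun v hv => ?_⟩,
    OBSV.dm_open (hc.isOpen_image (hsb _) (Sd_open _ _)),
    OBSV.dm_open (hc.isOpen_image (hsb _) (Sd_open _ _)), ?_, ?_, fun K hK hKs => ?_,
    fun z hz ε hε => ?_, fun x hx => ?_, fun x hx => ?_⟩
  · refine (norm_tc _).trans ?_
    rw [← PP_eq]
    exact hR n _ (subset_closure (N153.PP_DC (h.pos n) (h.poly n) (h.encl n) hv.1))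
  · rw [Set.disjoint_left]
    rintro x ⟨w, hw, he⟩ ⟨w', hw', he'⟩
    have := hc.inj (hsb _ hw) (hsb _ hw') (he.trans he'.symm)
    exact Set.disjoint_left.1 (Sd_disj hΓ.toCrs) hw (this ▸ hw')
  · rw [hW]
    rintro x ⟨w, hw, he⟩
    have h1 := hR' _ (hc.mem hw.1)
    rw [he] at h1
    rw [mem_ball_zero_iff]
    linarith [norm_tc x]
  · rw [hW] at hKs
    refine hK.induction_on (p := fun A => ∀ᶠ n in atTop, ∀ v, dp (δ n) v ∈ A →
      v ∈ FF (p n) (S n) (g n)) (Eventually.of_forall fun n v hv => hv.elim)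
      (fun A B hAB hB => hB.mono fun n hn v hv => hn v (hAB hv))
      (fun A B hA hB => (hA.and hB).mono fun n hn v hv => hv.elim (hn.1 v) (hn.2 v)) fun x hx => ?_
    obtain ⟨w, hw, he⟩ := hKs hx
    obtain ⟨s, hs, hss⟩ := Metric.isOpen_iff.1 (off_open Γ) w hw
    obtain ⟨r, hr, h2⟩ := h.ds.ball_sub (mem_ob.1 hw.1) (half_pos hs)
    refine ⟨tc ⁻¹' ball (tc x) (r / 2), mem_nhdsWithin_of_mem_nhds
      (OBSV.tc_cont.continuousAt.preimage_mem_nhds (ball_mem_nhds _ (half_pos hr))), ?_⟩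
    filter_upwards [h2, h.small (half_pos hr), Metric.tendsto_nhds.1 hy _ (half_pos hs)] with n
      a1 a2 a3 v hv
    rw [mem_preimage, ← PP_eq, ← he, mem_ball] at hv
    refine ⟨(POLY.PP_inn (h.pos n) (h.poly n) (h.encl n) v).1 (a1 _ (by
      rw [mem_ball]; linarith)).1, fun hc' => ?_⟩
    obtain ⟨z, hz, hzv⟩ := (hd n).near hc'
    have b1 := (a1 z (by rw [mem_ball]; linarith [dist_triangle z (PP (δ n) v) (φ w)])).2
    obtain ⟨t, ht⟩ : gn n z ∈ range (y n) := by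
      rw [(hd n).rng]
      exact mem_image_of_mem _ hz
    have b2 : dist (y n t) (Γ t) < s / 2 := (ContinuousMap.dist_apply_le_dist t).trans_lt a3
    refine (hss (show Γ t ∈ ball w s from ?_)).2 (mem_range_self t)
    rw [mem_ball]
    rw [← ht] at b1
    linarith [dist_triangle_left (Γ t) w (y n t)]
  · rw [hW] at hz
    have h1 : IsOpen (dm (φ '' (ball 0 1 \ range Γ))) :=
      OBSV.dm_open (hc.isOpen_image sdiff_subset (off_open Γ))
    rw [h1.frontier_eq] at hz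
    have h2 : tc z ∈ φ '' closedBall 0 1 := by
      have h3 : IsClosed (dm (φ '' closedBall 0 1)) :=
        ((isCompact_closedBall 0 1).image_of_continuousOn hc.cont).isClosed.preimage OBSV.tc_cont
      exact closure_minimal (t := dm (φ '' closedBall 0 1))
        (fun x hx => image_mono (sdiff_subset.trans ball_subset_closedBall) hx) h3 hz.1
    obtain ⟨ζ, hζ, he⟩ := h2
    have fin : ∀ {n : ℕ} {v : Pt} {x : ℂ}, δ n < ε / 2 → dist (PP (δ n) v) x ≤ δ n →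
        dist x (φ ζ) < ε / 2 → dist (dp (δ n) v) z ≤ ε := by
      intro n v x a1 a2 a3
      refine (dist_tc _ _).trans ?_
      rw [← PP_eq, ← he]
      linarith [dist_triangle (PP (δ n) v) x (φ ζ)]
    rcases (mem_cb.1 hζ).lt_or_eq with h3 | h3
    · obtain ⟨t, rfl⟩ : ζ ∈ range Γ := by
        by_contra h4
        exact hz.2 ⟨ζ, ⟨mem_ob.2 h3, h4⟩, he⟩
      obtain ⟨η, hη, h5⟩ := h.ds.modulus (half_pos hε)
      filter_upwards [h5, h.small (half_pos hε), Metric.tendsto_nhds.1 hy _ hη] with n a1 a2 a3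
      obtain ⟨x, hx, hxe⟩ : y n t ∈ gn n '' tr (δ n) (p n) (S n) (g n) := by
        rw [← (hd n).rng]
        exact mem_range_self t
      obtain ⟨j, hj, b1, -⟩ := (hd n).face hx
      refine ⟨_, fun hc' => hc'.2 (Or.inl ⟨j, hj.le, rfl⟩), fin a2 (face_diam (h.pos n)
        (INTF.face_of_corner (h.pos n) (INTF.corner1 ((hd n).ok.adj j))) b1)
        (a1 x ((hd n).clos hx) _ h3.le ?_)⟩
      rw [hxe]
      exact (ContinuousMap.dist_apply_le_dist t).trans_lt a3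
    · filter_upwards [h.ds.conv _ (half_pos hε), h.small (half_pos hε)] with n a1 a2
      obtain ⟨v, hv, b1⟩ := exists_out (h.pos n) (h.encl n)
        (N153.notMem_of_norm (h.ds.confn n) h3)
      exact ⟨v, fun hc' => hv hc'.1, fin a2 b1 (a1 ζ h3.le)⟩
  · filter_upwards [vis _ x hx] with n hn
    exact (hd n).vis (c := -1) (by norm_num) (hd n).arcs.dFM (fun b hb => (hd n).wallM hb) hn
  · filter_upwards [vis _ x hx] with n hn
    exact (hd n).vis (c := 1) (by norm_num) (hd n).arcs.dFP (fun b hb => (hd n).wallP hb) hn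

end Vale.Agent.N153J
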