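import Vale.Agent.N153J.Joint
import Vale.Agent.N153J.Defs

/-!
N153J: the assembly.
-/

set_option autoImplicit false
set_option linter.unusedVariables false

namespace Vale.Agent.N153J

open MeasureTheory ProbabilityTheory Filter Topology Set Metric TopologicalSpace
open scoped NNReal ENNReal
open Vale.Agent.P153 Vale.Agent.P153.R2 Vale.Agent.N153
open Vale.Agent.P153.R2.UNIQ hiding Hg
open Vale.Agent.P153.R2.R1 (toDisc imb)
open Vale.Agent.P153.R2.OBSV (dm)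
open Vale.Agent.P153.H212 (e)
open Vale.Agent.P153D (Te Di)

theorem domains : Domains := by
  obtain ⟨h1, -, h3, h4, h5⟩ := N153.domains
  refine ⟨fun D α a1 a2 a3 a4 a5 s hs => ?_, fun D β h => ?_, fun D ψ s β h => (h5 D ψ s β h).1⟩
  · obtain ⟨ψ, hψ⟩ := h1 D a1 a2 a3
    exact (h3 D ψ hψ a3 (lc_of_curve D α a4 a5) s hs).2
  · obtain ⟨⟨ψ, hψ⟩, h6⟩ := h4 D β h
    exact ⟨ψ, h6 ψ hψ⟩

theorem side_eq {G : C(unitInterval, ℂ)} {γ : ℝ → ℂ} (h1 : G 1 = 1)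
    (him : ∀ t, 0 ≤ t → 0 ≤ (γ t).im)
    (h2 : ∀ t : unitInterval, (t : ℝ) < 1 → G t = cay (γ (t / (1 - t)))) (x : ℝ) :
    cay '' side γ x = Sd G (cay x) := by
  have hA : cay '' ({w : ℂ | 0 ≤ w.im} \ γ '' Ici 0) ⊆ closedBall 0 1 \ range G := by
    rintro _ ⟨w, ⟨hw, hw'⟩, rfl⟩
    refine ⟨mem_cb.2 (norm_cay_le hw), fun ⟨t, ht⟩ => ?_⟩
    rcases (show (t : ℝ) ≤ 1 from t.2.2).lt_or_eq with h3 | h3
    · have h4 : 0 ≤ (t : ℝ) / (1 - t) := div_nonneg t.2.1 (by linarith)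
      exact hw' ⟨_, h4, cay_inj (him _ h4) hw ((h2 t h3).symm.trans ht)⟩
    · rw [show t = 1 from Subtype.ext h3, h1] at ht
      exact cay_ne hw ht.symm
  have hne : ∀ w ∈ closedBall (0 : ℂ) 1 \ range G, w ≠ 1 := fun w hw he => hw.2 ⟨1, h1.trans he.symm⟩
  have hB : imb 1 Complex.I '' (closedBall 0 1 \ range G) ⊆ {w : ℂ | 0 ≤ w.im} \ γ '' Ici 0 := by
    rintro _ ⟨w, hw, rfl⟩
    refine ⟨R1.imb_im_nonneg norm_one hI (mem_cb.1 hw.1) (hne w hw), fun ⟨τ, hτ, he⟩ => hw.2 ?_⟩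
    have h0 : (0 : ℝ) ≤ τ := hτ
    have h3 : τ / (1 + τ) < 1 := by
      rw [div_lt_one (by linarith)]
      linarith
    refine ⟨⟨τ / (1 + τ), by positivity, h3.le⟩, (h2 _ h3).trans ?_⟩
    have h4 : τ / (1 + τ) / (1 - τ / (1 + τ)) = τ := by
      field_simp
      ring
    change cay (γ (τ / (1 + τ) / (1 - τ / (1 + τ)))) = w
    rw [h4, he]
    exact (R1.mb_imb norm_one hI (hne w hw)).2
  have hc : ContinuousOn (imb 1 Complex.I) (closedBall 0 1 \ range G) :=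
    ContinuousOn.div (by fun_prop) (by fun_prop) fun w hw => sub_ne_zero.2 (hne w hw).symm
  ext w
  constructor
  · rintro ⟨z, ⟨hz, hj⟩, rfl⟩
    exact ⟨norm_cay_lt hz, (hj.map_continuousOn (cay_cont.mono sdiff_subset)).mono hA⟩
  · rintro ⟨hw, hj⟩
    have h3 := (JoinedIn.map_continuousOn hj hc).mono hB
    rw [cay, R1.imb_mb norm_one hI (by simp)] at h3
    exact ⟨_, ⟨R1.imb_im_pos norm_one hI hw, h3⟩, (R1.mb_imb norm_one hI (hne w hj.source_mem)).2⟩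

theorem cay_one : cay (1 : ℝ) = -Complex.I := by
  have h : (1 : ℂ) + Complex.I ≠ 0 := fun h => by simpa using congrArg Complex.re h
  rw [cay, R1.mb, Complex.conj_I, one_mul, sub_neg_eq_add, Complex.ofReal_one, div_eq_iff h]
  linear_combination Complex.I_sq

theorem cay_neg : cay (-1 : ℝ) = Complex.I := by
  have h : (-1 : ℂ) + Complex.I ≠ 0 := fun h => by simpa using congrArg Complex.re h
  rw [cay, R1.mb, Complex.conj_I, one_mul, sub_neg_eq_add, Complex.ofReal_neg, Complex.ofReal_one,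
    div_eq_iff h]
  linear_combination -Complex.I_sq

theorem mean_eq {A B : Set ℂ} (hA : MeasurableSet A) (hB : MeasurableSet B) {f : ℂ → ℝ}
    (hf : Integrable f) :
    ∫ z, uu (dm A) (dm B) z * (f ∘ e.symm) z = (∫ z in B, f z) - ∫ z in A, f z := by
  rw [← H212.integral_e, ← integral_indicator hA, ← integral_indicator hB,
    ← integral_sub (hf.indicator hB) (hf.indicator hA)]
  congr 1
  funext z
  have h1 : ∀ C : Set ℂ, (dm C).indicator (1 : ℝ × ℝ → ℝ) (e z) * f z = C.indicator f z := by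
    intro C
    by_cases hz : z ∈ C
    · rw [indicator_of_mem hz, indicator_of_mem (show e z ∈ dm C from hz), Pi.one_apply, one_mul]
    · rw [indicator_of_notMem hz, indicator_of_notMem (show e z ∉ dm C from hz), zero_mul]
  rw [uu, Function.comp_apply, e.symm_apply_apply, sub_mul, h1, h1]

theorem var_eq (A B : Set ℂ) (f : ℂ → ℝ) :
    P145.PT.V (dm A ∪ dm B) (f ∘ e.symm) = H212.V (A ∪ B) f := by
  rw [← H212.V_eq, ← dm_eq]
  rfl

theorem joint : Joint := by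
  classical
  obtain ⟨Q0, κ, hp⟩ := Final.exists_par
  have hκ := hp.pos
  have hdrv := Stp.t_drv (t_obs (hp.land hκ 2) (KAPV.slitsd_of (SDAR.l_sd (hp.scen hκ))))
  have hcross := t_cross hp.isQ hp.plane hp.spec hp.clt hκ
  have hend := En.t_end (hp.land hκ 2)
  let _ : MeasurableSpace C(unitInterval, ℂ) := borel _
  have _ : BorelSpace C(unitInterval, ℂ) := ⟨rfl⟩
  let _ : MeasurableSpace C(ℝ≥0, ℝ) := borel _
  have _ : BorelSpace C(ℝ≥0, ℝ) := ⟨rfl⟩
  obtain ⟨lam, hlam, f, hf, hgr⟩ := exists_base' hdrv hcross hend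
  let γ : C(ℝ≥0, ℝ) → ℝ → ℂ := fun w =>
    if hw : ∃ γ, Final.IsSimpleTrace (fun t => w t.toNNReal) γ ∧
      ∀ t : unitInterval, (t : ℝ) < 1 → f w t = cay (γ (t / (1 - t))) then hw.choose else 0
  have hγ : ∀ᵐ w ∂lam, Final.IsSimpleTrace (fun t => w t.toNNReal) (γ w) ∧
      ∀ t : unitInterval, (t : ℝ) < 1 → f w t = cay (γ w (t / (1 - t))) := by
    filter_upwards [hgr] with w hw
    simp only [γ, dif_pos hw.2]
    exact hw.2.choose_spec
  refine ⟨C(ℝ≥0, ℝ), inferInstance, lam, γ, hlam.prob, H212.isSLE_of ?_, ?_⟩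
  · refine ⟨fun t w => w t / 2, hlam, ?_⟩
    filter_upwards [hγ] with w hw
    have h4 : √(4 : ℝ) = 2 := by
      rw [show (4 : ℝ) = 2 ^ 2 by norm_num]
      exact Real.sqrt_sq (by norm_num)
    have : (fun t : ℝ => √4 * (w t.toNNReal / 2)) = fun t => w t.toNNReal := by
      funext t
      rw [h4]; ring
    rw [this]
    exact hw.1
  intro D ψ s β h
  have hU := isU_of h.1
  have hc := hU.toDisc
  have hψ : IsConf D ψ := ⟨h.1.1, h.1.2.1⟩
  have hs := h.2.1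
  obtain ⟨hG, hfl⟩ := distLimit exc D ψ hψ hc.isBounded
  refine ⟨hG, ?_⟩
  intro inst hB G hG'
  obtain rfl : inst = P153D.ms D := hB.measurable_eq
  obtain ⟨Φ, f1, f2, f3, u, U, f4, f5, f6, f7⟩ := hfl s hs G hG'
  obtain ⟨hex, hca⟩ := N153.domains.2.2.2.2 D ψ s β h
  set φ := toDisc ψ (β (1 / 2)) with hφ
  have key : ∀ δ N k p S, P153E.Approximates β δ N k p S → ∃ φn gn,
      LS D φ δ N k p (fun n => H212.old (S n)) φn gn ∧
      ∀ᶠ n in atTop, (DRV.sg (p n) (H212.old (S n)) : ℝ) = -s := by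
    intro δ N k p S hA
    obtain ⟨ψn, g1, g2, -⟩ := rado D ψ s β h δ N k p S hA
    obtain ⟨φn, gn, hL⟩ := ls_of (S := fun n => H212.old (S n)) hU (fun n =>
      ⟨(hA.1 n).1, (hA.1 n).2.1, (hA.1 n).2.2.1, H212.isPolygon (hA.1 n).2.2.2,
        H212.encl_old (hA.1 n).2.2.2⟩) hA.2.1 g1 g2
    exact ⟨φn, gn, hL, (cs_of hψ hs (hca δ N k p S hA)).choose_spec.2⟩
  have conv : ∀ δ N k p S, P153E.Approximates β δ N k p S → ∀ X : ℕ → (ℤ × ℤ → ℤ) → Di D,
      (∀ n h f, X n h f = H212.fld (S n) (δ n) f h) → ∀ c : ℕ → (ℤ × ℤ → ℤ) → C(unitInterval, ℂ),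
      (∀ n, ∀ h ∈ H212.Heights (p n) (S n) (H212.arcs (k n)),
        H212.IsInterface (p n) (k n) (S n) (δ n) h (c n h)) →
      ∀ Ψ : C(unitInterval, ℂ) × Di D → ℝ, Continuous Ψ → (∃ M, ∀ q, |Ψ q| ≤ M) →
      (∀ T, Inv fun x => Ψ (x, T)) →
      Tendsto (fun n => ∫ h, Ψ (c n h, X n h) ∂H212.law (p n) (S n) (H212.arcs (k n))) atTop
        (𝓝 (∫ w, ∫ T, Ψ ((extC hc).comp (f w), T) ∂(Qf D φ s (f w)) ∂lam)) := by
    intro δ N k p S hA X hX c hc' Ψ hΨ ⟨M, hM⟩ hI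
    have hS : ∀ n, H212.Tris (S n) := fun n => H212.tris_of (hA.1 n).2.2.2
    obtain ⟨φn, gn, hL, hsg⟩ := key δ N k p S hA
    refine (conv_joint hdrv hcross hend hlam hf hgr hL hs hsg (X := X)
      (fun n g f => by rw [hX, H212.fld_fun (hS n)]) hΨ hM (c := c) (fun n g hg => ?_) hI).congr
      fun n => ?_
    · rw [← H212.heights_arcs (hS n)] at hg
      exact (H212.isInterface_iff (hS n) _ _ _ _).1 (hc' n g hg)
    · rw [H212.law_arcs (hS n)]
      rfl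
  have itf : ∀ δ N k p S, P153E.Approximates β δ N k p S → ∃ c : ℕ → (ℤ × ℤ → ℤ) →
      C(unitInterval, ℂ), ∀ n, ∀ h ∈ H212.Heights (p n) (S n) (H212.arcs (k n)),
        H212.IsInterface (p n) (k n) (S n) (δ n) h (c n h) := by
    intro δ N k p S hA
    have hS : ∀ n, H212.Tris (S n) := fun n => H212.tris_of (hA.1 n).2.2.2
    obtain ⟨φn, gn, hL, -⟩ := key δ N k p S hA
    obtain ⟨x, hx⟩ := exists_itf hL
    refine ⟨x, fun n g hg => ?_⟩
    rw [H212.heights_arcs (hS n)] at hg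
    exact (H212.isInterface_iff (hS n) _ _ _ _).2 (hx n g hg)
  obtain ⟨N0, k0, p0, S0, hA0⟩ := hex (fun n => 1 / ((n : ℝ) + 1)) (fun n => by positivity)
    tendsto_one_div_add_atTop_nhds_zero_nat
  obtain ⟨X0, -, x1, -, -, -, x2⟩ := f7 _ _ _ _ _ (hca _ _ _ _ _ hA0)
  obtain ⟨φ0, g0, hL0, hsg0⟩ := key _ _ _ _ _ hA0
  have sub := fun (Ψ : C(unitInterval, ℂ) × Di D → ℝ) (hΨ : Continuous Ψ) (M : ℝ)
    (hM : ∀ q, |Ψ q| ≤ M) => sub_cond hdrv hcross hend hlam hf hgr hL0 hs hsg0 (X := X0)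
      (fun n g f => (x1 n g f).trans
        (congrFun (H212.fld_fun (H212.tris_of (hA0.1 n).2.2.2) _ _) g)) hΨ hM
  refine ⟨Φ, u, U, fun w => (extC hc).comp (f w), fun w => Qf D φ s (f w), f1, f2, f3, f4, f5, f6,
    ?_, fun Ψ hΨ ⟨M, hM⟩ => (sub Ψ hΨ M hM).2.1, fun F hF hM => ?_, fun δ N k p S hA => ?_⟩
  · filter_upwards [hγ, area hc hlam hf hgr, (sub (fun _ => 0) continuous_const 0 (by simp)).1,
      hlam.eval_zero_ae_eq_zero] with w ⟨a1, a2⟩ ⟨a3, a4⟩ a5 a6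
    have him : ∀ t, 0 ≤ t → 0 ≤ (γ w t).im := fun t ht => by
      rcases ht.lt_or_eq with h4 | h4
      · exact (a1.im_pos _ h4).le
      · rw [← h4, a1.start, Complex.ofReal_im]
    have hsd : ∀ x : ℝ, ψ '' side (γ w) x = φ '' Sd (f w) (cay x) := by
      intro x
      rw [← side_eq a3.one him a2, image_image]
      exact image_congr fun z hz => (R1.toDisc_mb (le_of_lt hz.1)).symm
    have hr : range ((extC hc).comp (f w)) = φ '' range (f w) := by
      rw [← range_comp]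
      exact congrArg range (funext fun t => extC_eq hc (a3.le t))
    have hsb : ∀ ζ, Sd (f w) ζ ⊆ ball 0 1 := fun ζ z hz => (Sd_sub _ ζ hz).1
    have ho : ∀ ζ, IsOpen (φ '' Sd (f w) ζ) := fun ζ => hc.isOpen_image (hsb _) (Sd_open _ _)
    have hd : Disjoint (φ '' Sd (f w) Complex.I) (φ '' Sd (f w) (-Complex.I)) :=
      (disjoint_image_image fun a ha b hb he => Set.disjoint_left.1 (Sd_disj a3.toCrs) ha
        (hc.inj (hsb _ ha) (hsb _ hb) he ▸ hb))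
    have hun : φ '' Sd (f w) Complex.I ∪ φ '' Sd (f w) (-Complex.I) =
        (D : Set ℂ) \ φ '' range (f w) := by
      rw [← image_union, Sd_cover a3]
      ext z
      constructor
      · rintro ⟨a, ⟨b1, b2⟩, rfl⟩
        refine ⟨hc.mem b1, ?_⟩
        rintro ⟨_, ⟨t, rfl⟩, he⟩
        rcases (a3.le t).lt_or_eq with b3 | b3
        · exact b2 ⟨t, hc.inj (mem_ob.2 b3) b1 he⟩
        · exact notMem_of_norm hc b3 (he ▸ hc.mem b1)
      · rintro ⟨b1, b2⟩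
        obtain ⟨a, ha, rfl⟩ : z ∈ φ '' ball 0 1 := hc.img.symm ▸ b1
        exact ⟨a, ⟨ha, fun hc' => b2 (mem_image_of_mem _ hc')⟩, rfl⟩
    have hq : ∀ {A B : Set ℂ}, IsCond A B (Qf D φ s (f w)) → IsCond A B (Qf D φ s (f w)) ∧
        ∀ Q' : Measure (Di D), IsCond A B Q' → Q' = Qf D φ s (f w) := fun h1 =>
      ⟨h1, fun Q' h2 => P153D.uni D _ _ h2.1 h1.1 fun g => (h2.2 g).trans (h1.2 g).symm⟩
    have hi : ∀ g : Te D, Integrable g := fun g =>
      g.contDiff.continuous.integrable_of_hasCompactSupport g.hasCompactSupport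
    refine ⟨by rw [ContinuousMap.comp_apply, a3.one, extC_eq _ norm_one.le, hφ, R1.toDisc_one],
      fun t ht => ?_, by rw [hr, a4], by rw [hsd]; exact ho _, by rw [hsd]; exact ho _, ?_⟩
    · have h3 := him _ (div_nonneg t.2.1 (show 0 ≤ 1 - (t : ℝ) by linarith))
      rw [ContinuousMap.comp_apply, a2 t ht, extC_eq _ (norm_cay_le h3), cay, hφ, R1.toDisc_mb h3]
    rw [hsd, hsd, hr]
    rcases hs with rfl | rfl
    · rw [cay_one, cay_neg]
      refine ⟨hd.symm, union_comm _ _ ▸ hun, hq ⟨a5.1, fun g => ?_⟩⟩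
      rw [a5.2, one_mul, mean_eq (ho _).measurableSet (ho _).measurableSet (hi g), var_eq,
        union_comm]
    · rw [neg_neg, cay_one, cay_neg]
      refine ⟨hd, hun, hq ⟨a5.1, fun g => ?_⟩⟩
      rw [a5.2, neg_one_mul, mean_eq (ho _).measurableSet (ho _).measurableSet (hi g), var_eq,
        neg_sub]
  · obtain ⟨c, hc'⟩ := itf _ _ _ _ _ hA0
    obtain ⟨M, hM'⟩ := id hM
    exact tendsto_nhds_unique (conv _ _ _ _ _ hA0 X0 x1 c hc' (fun q => F q.2) (by fun_prop)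
      ⟨M, fun q => hM' _⟩ fun T x σ _ _ => rfl) (x2.2 F hF hM)
  · obtain ⟨c, hc'⟩ := itf _ _ _ _ _ hA
    obtain ⟨X, M, y1, y2, y3, y4, -⟩ := f7 _ _ _ _ _ (hca _ _ _ _ _ hA)
    exact ⟨fun n g hg => ⟨_, hc' n g hg⟩, X, M, y1, y2, P153D.tendsto_of P153D.fer P153D.uni y3, y4,
      fun c hc Ψ hΨ hM hI => conv _ _ _ _ _ hA X y1 c hc Ψ hΨ hM fun T x σ a b => hI x T σ a b⟩

end Vale.Agent.N153J
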