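import Vale.Agent.N153J.Lat

/-!
N153J: the conditional law of the field, given the interface, for test functions whose support
meets the interface.
-/

set_option autoImplicit false
set_option linter.unusedVariables false

namespace Vale.Agent.N153J

open Filter Topology Set Metric MeasureTheory ProbabilityTheory
open Vale.Agent.P145.PT Vale.Agent.P153 Vale.Agent.P153.F.Top Vale.Agent.P153.R2
open Vale.Agent.P153.F.X (vm)
open Vale.Agent.P153.R2.FLDI
open Vale.Agent.P153.R2.INTF (CA PP eta eta_or CA_finite)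
open Vale.Agent.P153.R2.OBSV (tc tp dm PP_eq)
open Vale.Agent.P153.R2.POLY (DC)
open Vale.Agent.P153.R2.KAPV (hf)
open Vale.Agent.N153 (LS LD mem_cb mem_ob)

theorem dp_inj {δ : ℝ} (hδ : 0 < δ) : Function.Injective (dp δ) := by
  intro v w h
  obtain ⟨h1, h2⟩ := Prod.ext_iff.1 h
  have h3 : (v.2 : ℝ) = w.2 := mul_left_cancel₀ s3_pos.ne' (mul_left_cancel₀ hδ.ne' h2)
  have h4 : (v.1 : ℝ) + v.2 / 2 = w.1 + w.2 / 2 := mul_left_cancel₀ hδ.ne' h1
  rw [h3] at h4
  exact Prod.ext (by exact_mod_cast add_right_cancel h4) (by exact_mod_cast h3)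

/-- The second moments of weighted sums, uniformly in the domain and the data `±1`. -/
theorem l2_w {δ : ℕ → ℝ} (hδ : ∀ n, 0 < δ n) (hδ0 : Tendsto δ atTop (𝓝 0)) {R : ℝ} (hR : 0 < R) :
    ∃ C : ℝ, 0 ≤ C ∧ ∀ f, TestOn (ball 0 R) f → (∀ z, 0 ≤ f z) → ∀ ε : ℝ, 0 < ε →
      ∀ᶠ n in atTop, ∀ (V : Set Pt) (η : Hg), (∀ x ∈ V, dp (δ n) x ∈ ball (0 : ℝ × ℝ) R) →
      (∀ x, η x = 1 ∨ η x = -1) → ∀ c : Pt → ℝ,
      (∀ v, |c v| ≤ δ n ^ 2 * (√3 / 2 * f (dp (δ n) v))) →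
      Ex (Cfg V (exa V η)) (fun h => (∑ v ∈ Bx (δ n) R, c v * h v) ^ 2) ≤
        C * (∫ z, f z ^ 2) + ε := by
  classical
  obtain ⟨Q, κ', h⟩ := Final.exists_par
  have lvl := F.lvl_of h.isQ h.plane h.spec h.clt h.pos
  have hl2 : S_l2 δ := F.X.s_l2 hδ hδ0 lvl.low (lvl.mm δ hδ hδ0) lvl.rsw F.X.s_loc
  obtain ⟨C2, hC2, h2⟩ := hl2 (R + 1) (by linarith)
  obtain ⟨C1, hC1, h1⟩ := l1_le_sq (D := ball (0 : ℝ × ℝ) R) isBounded_ball
  refine ⟨48 * C2 + 195 * C1, by positivity, fun f hf hf0 ε hε => ?_⟩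
  have hs : ∀ z, f z ≠ 0 → z ∈ ball (0 : ℝ × ℝ) R := fun z hz => hf.2.2 (subset_tsupport _ hz)
  have hab := ((riem_ab hf.cont hf.2.1 hs hδ hδ0).pow 2).eventually
    (gt_mem_nhds (show (∫ z, |f z|) ^ 2 < (∫ z, |f z|) ^ 2 + ε / 243 by linarith))
  filter_upwards [h2 (ball 0 (R + 1)) isOpen_ball subset_rfl f
    (SDAR.TestOn.ball_mono (by linarith) hf) hf0 (ε / 243) (by positivity), hab,
    hδ0.eventually (gt_mem_nhds (show (0 : ℝ) < 1 / 2 by norm_num))] with n a1 a2 a3 V η hV hη c hc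
  have hd := hδ n
  set B := Bx (δ n) R with hB'
  set A := ab B (δ n) f with hA
  have hVf := SDAR.fin_of_ball hd hV
  have hw : (0 : ℝ) < δ n ^ 2 * (√3 / 2) := by positivity
  have a4 : EE (δ n) (ball 0 (R + 1)) (fun ω => hv (δ n) f ω ^ 2) =
      ze (Vs (δ n) (ball (0 : ℝ × ℝ) (R + 1))) (fun ω => hB B (δ n) f ω ^ 2) := by
    unfold EE
    simp only [hv_Bx hd hs, hB']
  rw [a4] at a1
  have hAe : A = ∑ v ∈ B, δ n ^ 2 * (√3 / 2 * f (dp (δ n) v)) := by
    rw [hA, ab, Finset.mul_sum]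
    exact Finset.sum_congr rfl fun v _ => by rw [abs_of_nonneg (tl_nonneg hf0 _), tl_dp]
  have key : ∀ c : Pt → ℝ, (∀ v, 0 ≤ c v ∧ c v ≤ δ n ^ 2 * (√3 / 2 * f (dp (δ n) v))) →
      (∀ v, c v ≠ 0 → v ∈ V) → Ex (Cfg V (exa V η)) (fun h => (∑ v ∈ B, c v * h v) ^ 2) ≤
        8 * (C2 * (∫ z, f z ^ 2) + ε / 243) + 32 * A ^ 2 := by
    intro c hc hcV
    set g : ℝ × ℝ → ℝ := Function.extend (dp (δ n)) (fun v => c v / (δ n ^ 2 * (√3 / 2))) 0
      with hg
    have g1 : ∀ v, g (dp (δ n) v) = c v / (δ n ^ 2 * (√3 / 2)) := fun v =>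
      (dp_inj hd).extend_apply _ _ v
    have g2 : ∀ z, 0 ≤ g z ∧ g z ≤ 1 * f z := by
      intro z
      by_cases hz : ∃ v, dp (δ n) v = z
      · obtain ⟨v, rfl⟩ := hz
        rw [g1, div_le_iff₀ hw]
        exact ⟨div_nonneg (hc v).1 hw.le, by linarith [(hc v).2]⟩
      · rw [hg, Function.extend_apply' _ _ _ hz, one_mul]
        exact ⟨le_rfl, hf0 z⟩
    have g3 : ∀ v : Pt, δ n ^ 2 * tl g (δ n * v.1, δ n * v.2) = c v := by
      intro v
      rw [tl_dp, g1]
      field_simp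
    have g4 : ∀ h : Hg, ∑ v ∈ B, c v * h v = hB B (δ n) g (vm h) := by
      intro h
      rw [hB, Finset.mul_sum]
      exact Finset.sum_congr rfl fun v _ => by rw [← g3, vm]; ring
    have g5 : ab B (δ n) g ≤ A := by
      rw [hAe, ab, Finset.mul_sum]
      exact Finset.sum_le_sum fun v _ => by
        rw [abs_of_nonneg (tl_nonneg (fun z => (g2 z).1) _), g3]; exact (hc v).2
    simp only [g4]
    have b1 := SDAR.exa_mom (B := B) (δ := δ n) hVf hη (fun z => (g2 z).1) 1 one_pos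
    simp only [mul_one, pow_one] at b1
    have b2 := SDAR.frd_mom (B := B) hVf (SDAR.sub_Vs hd (by linarith) hV) (fun z => (g2 z).1)
      (fun x hx => hcV x fun h0 => hx (by rw [g1, h0, zero_div])) 2
    have b3 := cone_ze_nonneg s_mono (Vs (δ n) (ball (0 : ℝ × ℝ) (R + 1)))
      (cone_dom (B := B) (δ := δ n) hf0 zero_le_one [g, g] (by simpa using g2))
    have b4 : ze (Vs (δ n) (ball (0 : ℝ × ℝ) (R + 1))) (fun ω => hB B (δ n) f ω ^ 2) =
        ze (Vs (δ n) (ball (0 : ℝ × ℝ) (R + 1))) (fun ω => 1 ^ [g, g].length *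
          hB B (δ n) f ω ^ [g, g].length - hl B (δ n) [g, g] ω) +
        ze (Vs (δ n) (ball (0 : ℝ × ℝ) (R + 1))) (fun ω => hB B (δ n) g ω ^ 2) := by
      rw [← ze_add']
      congr 1
      funext ω
      simp [hl, sq]
    have b5 := pow_le_pow_left₀ (ab_nonneg B (δ n) g) g5 2
    nlinarith
  have k1 := key (fun v => if v ∈ V then max (c v) 0 else 0) (fun v => by
    have := abs_le.1 (hc v)
    split_ifs
    · exact ⟨le_max_right _ _, max_le this.2 (by linarith)⟩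
    · exact ⟨le_rfl, by linarith⟩) fun v hv => by
      by_contra h0
      exact hv (if_neg h0)
  have k2 := key (fun v => if v ∈ V then max (-c v) 0 else 0) (fun v => by
    have := abs_le.1 (hc v)
    split_ifs
    · exact ⟨le_max_right _ _, max_le (by linarith) (by linarith)⟩
    · exact ⟨le_rfl, by linarith⟩) fun v hv => by
      by_contra h0
      exact hv (if_neg h0)
  have k3 : ∀ h ∈ Cfg V (exa V η), (∑ v ∈ B, c v * h v) ^ 2 ≤
      3 * (∑ v ∈ B, (if v ∈ V then max (c v) 0 else 0) * h v) ^ 2 +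
      (3 * (∑ v ∈ B, (if v ∈ V then max (-c v) 0 else 0) * h v) ^ 2 + 3 * A ^ 2) := by
    intro h hh
    have e : ∑ v ∈ B, c v * h v = ∑ v ∈ B, (if v ∈ V then max (c v) 0 else 0) * (h v : ℝ) -
        ∑ v ∈ B, (if v ∈ V then max (-c v) 0 else 0) * (h v : ℝ) +
        ∑ v ∈ B, (if v ∈ V then 0 else c v) * (h v : ℝ) := by
      rw [← Finset.sum_sub_distrib, ← Finset.sum_add_distrib]
      refine Finset.sum_congr rfl fun v _ => ?_
      split_ifs
      · rw [← sub_mul, max_zero_sub_max_neg_zero_eq_self, zero_mul, add_zero]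
      · ring
    have b : |∑ v ∈ B, (if v ∈ V then 0 else c v) * (h v : ℝ)| ≤ A := by
      rw [hAe]
      refine (Finset.abs_sum_le_sum_abs _ _).trans (Finset.sum_le_sum fun v _ => ?_)
      split_ifs with hv
      · rw [zero_mul, abs_zero]
        exact (abs_nonneg _).trans (hc v)
      · have h3 : h v = η v := by
          have := hh.2.1 v
          rwa [exa, if_neg hv] at this
        have h4 : |(h v : ℝ)| = 1 := by
          rcases hη v with h5 | h5 <;> rw [h3, h5] <;> simp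
        rw [abs_mul, h4, mul_one]
        exact hc v
    have b' := sq_le_sq' (abs_le.1 b).1 (abs_le.1 b).2
    rw [e]
    generalize ∑ v ∈ B, (if v ∈ V then max (c v) 0 else 0) * (h v : ℝ) = x
    generalize ∑ v ∈ B, (if v ∈ V then max (-c v) 0 else 0) * (h v : ℝ) = y
    generalize ∑ v ∈ B, (if v ∈ V then 0 else c v) * (h v : ℝ) = z at b'
    nlinarith [sq_nonneg (x + y), sq_nonneg (x - z), sq_nonneg (y + z)]
  refine (Ex_mono k3).trans ?_
  rw [Ex_add, Ex_add, Ex_const_mul, Ex_const_mul,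
    Ex_const (Cfg_finite (SDAR.dat_exa hVf)) (SDAR.cfg_exa_ne hη)]
  have := h1 f hf
  linarith

/-- Gaussian limits by approximation. -/
theorem toGauss_approx {T : ℕ → Set Hg} (hf : ∀ n, (T n).Finite) (hn : ∀ n, (T n).Nonempty)
    {X : ℕ → Hg → ℝ} {m v L1 L2 L3 : ℝ} (hv : 0 ≤ v)
    (h : ∀ τ > 0, ∃ (Y : ℕ → Hg → ℝ) (m' v' : ℝ), 0 ≤ v' ∧ |m' - m| ≤ L1 * τ ∧
      |√v' - √v| ≤ L2 * τ ∧ (∀ j : ℕ, Tendsto (fun n => Ex (T n) fun g => (Y n g - m') ^ j) atTop
        (𝓝 (gm v' j))) ∧ ∀ᶠ n in atTop, Ex (T n) (fun g => (X n g - Y n g) ^ 2) ≤ L3 * τ ^ 2) :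
    H212.ToGauss atTop (fun n => uniformOn (T n)) X m v := by
  have hp := fun n => (unif_spec (hf n) (hn n)).1
  have hi := fun n => (unif_spec (hf n) (hn n)).2.1
  have he := fun n => (unif_spec (hf n) (hn n)).2.2
  have hXm : ∀ n, AEMeasurable (X n) (uniformOn (T n)) := fun n =>
    (hi n _).aestronglyMeasurable.aemeasurable
  refine H212.toGauss_of (hL := hp) ⟨hv, hXm, by fun_prop, ?_⟩
  refine ProbabilityMeasure.tendsto_of_tendsto_charFun fun t => ?_
  simp only [ProbabilityMeasure.coe_mk, Measure.map_id]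
  rw [charFun_gaussianReal]
  set Φ : ℝ × ℝ → ℂ := fun q => Complex.exp (Complex.I * ((t * q.1 : ℝ) : ℂ)) *
    Complex.exp ((-(t ^ 2 * q.2 ^ 2 / 2) : ℝ) : ℂ) with hΦ
  have e1 : Complex.exp ((t : ℂ) * (m : ℂ) * Complex.I - ((v.toNNReal : ℝ) : ℂ) * (t : ℂ) ^ 2 / 2) =
      Φ (m, √v) := by
    simp only [hΦ]
    rw [← Complex.exp_add, Real.coe_toNNReal _ hv, Real.sq_sqrt hv]
    congr 1
    push_cast
    ring
  rw [e1, Metric.tendsto_nhds]
  intro ε hε
  obtain ⟨η, hη, hc⟩ := Metric.continuousAt_iff.1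
    ((show Continuous Φ by fun_prop).continuousAt (x := (m, √v))) (ε / 3) (by positivity)
  have hev : ∀ {u : ℝ → ℝ} {a : ℝ}, Continuous u → u 0 < a → ∀ᶠ τ in 𝓝[>] (0 : ℝ), u τ < a :=
    fun hu ha => (hu.continuousAt.eventually (gt_mem_nhds ha)).filter_mono nhdsWithin_le_nhds
  obtain ⟨τ, ⟨⟨t1, t2⟩, t3⟩, hτ⟩ := ((((hev (u := fun τ => L1 * τ) (by fun_prop) (by simpa)).and
    (hev (u := fun τ => L2 * τ) (a := η) (by fun_prop) (by simpa))).and
    (hev (u := fun τ => |t| * √(L3 * τ ^ 2)) (a := ε / 3) (by fun_prop)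
      (by simpa))).and self_mem_nhdsWithin).exists
  obtain ⟨Y, m', v', a0, a1, a2, a3, a4⟩ := h τ hτ
  have h0 : dist (Φ (m', √v')) (Φ (m, √v)) < ε / 3 :=
    hc (by rw [Prod.dist_eq]; exact max_lt (a1.trans_lt t1) (a2.trans_lt t2))
  have h1 := charfun_of_moments (l := atTop) (fun n => uniformOn (T n))
    (fun n g => t * (Y n g - m')) (fun n j => hi n _) (v := t ^ 2 * v') fun j => by
      have h1 := (a3 j).const_mul (t ^ j)
      rw [← (gm_scale t v' j).1] at h1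
      refine h1.congr fun n => ?_
      rw [he, ← Ex_const_mul]
      exact Ex_congr fun g _ => (mul_pow _ _ _).symm
  have h2 : Tendsto (fun n => ∫ g, Complex.exp (Complex.I * ((t * Y n g : ℝ) : ℂ))
      ∂(uniformOn (T n))) atTop (𝓝 (Φ (m', √v'))) := by
    simp only [hΦ, Real.sq_sqrt a0]
    refine (h1.const_mul (Complex.exp (Complex.I * ((t * m' : ℝ) : ℂ)))).congr fun n => ?_
    rw [← integral_const_mul]
    congr 1
    funext g
    rw [← Complex.exp_add]
    congr 1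
    push_cast
    ring
  filter_upwards [Metric.tendsto_nhds.1 h2 (ε / 3) (by positivity), a4] with n b1 b2
  have hI : ∀ Z : Hg → ℝ, Integrable (fun g => Complex.exp (Complex.I * (Z g : ℂ)))
      (uniformOn (T n)) := by
    intro Z
    refine Integrable.of_bound (C := 1) ?_ (ae_of_all _ fun g => ?_)
    · exact Complex.continuous_exp.comp_aestronglyMeasurable
        ((Complex.continuous_ofReal.comp_aestronglyMeasurable
          (hi n Z).aestronglyMeasurable).const_mul _)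
    · rw [Complex.norm_exp_I_mul_ofReal]
  have e2 : charFun ((uniformOn (T n)).map (X n)) t =
      ∫ g, Complex.exp (Complex.I * ((t * X n g : ℝ) : ℂ)) ∂(uniformOn (T n)) := by
    rw [charFun_apply_real, integral_map (hXm n) (by fun_prop)]
    refine integral_congr_ae (ae_of_all _ fun g => ?_)
    simp only
    congr 1
    push_cast
    ring
  have b3 : dist (∫ g, Complex.exp (Complex.I * ((t * X n g : ℝ) : ℂ)) ∂(uniformOn (T n)))
      (∫ g, Complex.exp (Complex.I * ((t * Y n g : ℝ) : ℂ)) ∂(uniformOn (T n))) ≤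
      |t| * √(L3 * τ ^ 2) := by
    rw [dist_eq_norm, ← integral_sub (hI _) (hI _)]
    refine (norm_integral_le_integral_norm _).trans
      ((integral_mono ((hI _).sub (hI _)).norm (hi n fun g => |t| * |X n g - Y n g|)
        fun g => (exp_lip _ _).trans (by rw [← mul_sub, abs_mul])).trans ?_)
    rw [he, Ex_const_mul]
    exact mul_le_mul_of_nonneg_left (Real.le_sqrt_of_sq_le
      ((Ex_abs_sq (hf n) (hn n) _).trans b2)) (abs_nonneg _)
  rw [e2]
  linarith [dist_triangle4 (∫ g, Complex.exp (Complex.I * ((t * X n g : ℝ) : ℂ))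
    ∂(uniformOn (T n))) (∫ g, Complex.exp (Complex.I * ((t * Y n g : ℝ) : ℂ)) ∂(uniformOn (T n)))
    (Φ (m', √v')) (Φ (m, √v))]

/-- The triangle inequality for `√V`. -/
theorem sqrt_V {W : Set (ℝ × ℝ)} (hb : Bornology.IsBounded W) {R : ℝ} (hR : ∀ z ∈ W, |z.1| ≤ R)
    {f g : ℝ × ℝ → ℝ} (hf : TestOn univ f) (hg : TestOn univ g) :
    √(V W f) ≤ √(V W g) + √(4 * R ^ 2 * ∫ z, (f z - g z) ^ 2) := by
  refine Real.sqrt_le_iff.2 ⟨by positivity, V_le fun ψ hψ => ?_⟩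
  have hk := hf.sub hg
  have h1 : V W (fun z => f z - g z) ≤ 4 * R ^ 2 * ∫ z, (f z - g z) ^ 2 :=
    V_le fun ψ hψ => functional_le hR hk.intSq hk.cont.aestronglyMeasurable hψ
  have hE := energy_nonneg ψ
  have h2 := Real.le_sqrt_of_sq_le ((pair_le hb hk hψ).trans (mul_le_mul_of_nonneg_right h1 hE))
  have h3 := Real.le_sqrt_of_sq_le (pair_le hb hg hψ)
  rw [Real.sqrt_mul' _ hE] at h2 h3
  have e : ∫ z, f z * ψ z = (∫ z, g z * ψ z) + ∫ z, (f z - g z) * ψ z := by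
    rw [← integral_add (hg.intMul hψ.cont) (hk.intMul hψ.cont)]
    congr 1
    funext z
    ring
  rw [e]
  nlinarith [Real.sq_sqrt hE, sq_nonneg (√(V W g) + √(4 * R ^ 2 * ∫ z, (f z - g z) ^ 2) -
    √(energy ψ))]

/-- A cutoff with a small integral around a compact null set. -/
theorem exists_cut {K U : Set (ℝ × ℝ)} (hK : IsCompact K) (h0 : volume K = 0) (hU : IsOpen U)
    (hKU : K ⊆ U) {τ : ℝ} (hτ : 0 < τ) : ∃ ρ, TestOn U ρ ∧ (∀ z, 0 ≤ ρ z ∧ ρ z ≤ 1) ∧
      (∀ᶠ z in 𝓝ˢ K, ρ z = 1) ∧ ∫ z, ρ z ≤ τ := by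
  obtain ⟨U', h1, h2, h3⟩ := K.exists_isOpen_lt_of_lt (μ := volume) (ENNReal.ofReal τ)
    (by rw [h0]; exact ENNReal.ofReal_pos.2 hτ)
  obtain ⟨L, l1, l2, l3⟩ := exists_compact_between hK (hU.inter h2) (subset_inter hKU h1)
  obtain ⟨ρ, r1, r2, r3⟩ := exists_contMDiffMap_one_nhds_of_subset_interior (n := (⊤ : ℕ∞))
    (modelWithCornersSelf ℝ (ℝ × ℝ)) hK.isClosed l2
  have hs : tsupport ρ ⊆ L := closure_minimal (fun x hx => by_contra fun hc => hx (r2 x hc))
    l1.isClosed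
  have ht : TestOn U ρ := ⟨ρ.contMDiff.contDiff, l1.of_isClosed_subset (isClosed_tsupport _) hs,
    hs.trans (l3.trans inter_subset_left)⟩
  refine ⟨ρ, ht, fun z => r3 z, r1, ?_⟩
  have h4 : ∫ z, ρ z ≤ ∫ z, L.indicator 1 z := by
    refine integral_mono ht.int ((integrable_indicator_iff l1.measurableSet).2
      (integrableOn_const l1.measure_ne_top)) fun z => ?_
    by_cases hz : z ∈ L
    · rw [indicator_of_mem hz]
      exact (r3 z).2
    · rw [indicator_of_notMem hz, r2 z hz]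
  rw [integral_indicator_one l1.measurableSet] at h4
  exact h4.trans (ENNReal.toReal_le_of_le_ofReal hτ.le
    ((measure_mono (l3.trans inter_subset_right)).trans h3.le))

variable {D : Set ℂ} {φ : ℂ → ℂ} {δ : ℕ → ℝ} {N : ℕ → ℕ} {p : ∀ n, ZMod (N n) → ℤ × ℤ}
  {S : ℕ → Finset Final.Tri} {φn gn : ℕ → ℂ → ℂ} {R : ℝ} {F P M : ℕ → Set Pt}
  {Wp Wm : Set (ℝ × ℝ)}

theorem uu_int (h1 : IsOpen Wp) (h2 : IsOpen Wm) {f : ℝ × ℝ → ℝ} (hf : Integrable f) :
    Integrable fun z => uu Wp Wm z * f z :=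
  hf.bdd_mul (c := 1) ((measurable_one.indicator h2.measurableSet).sub
    (measurable_one.indicator h1.measurableSet)).aestronglyMeasurable (ae_of_all _ (uu_le _ _))

/-- **The conditional law of the field.** -/
theorem Fill.near (hF : Fill R δ F P M Wp Wm) (h : LD D φ δ N p S φn gn) (hR0 : 0 < R)
    (hR : ∀ n, ∀ x ∈ closure (DC (δ n) (S n)), ‖x‖ ≤ R) (hR' : ∀ x ∈ D, ‖x‖ ≤ R) {s : ℝ}
    (hs : s = 1 ∨ s = -1) (hsg : ∀ᶠ n in atTop, (DRV.sg (p n) (S n) : ℝ) = -s)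
    (h0 : volume (dm D \ (Wp ∪ Wm)) = 0) {f : ℝ × ℝ → ℝ} (hf' : TestOn (dm D) f) :
    H212.ToGauss atTop (fun n => uniformOn (CA (F n) (M n)))
      (fun n g => Final.fld (S n) (δ n) f (DRV.bk (p n) (S n) g))
      (s * ∫ z, uu Wp Wm z * f z) (8 / Real.pi * V (Wp ∪ Wm) f) := by
  classical
  have hfu : TestOn univ f := hf'.mono (subset_univ _)
  obtain ⟨A, hA⟩ := hf'.cont.bounded_above_of_compact_support hf'.cs
  have hA0 : 0 ≤ A := (norm_nonneg _).trans (hA 0)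
  obtain ⟨χ, x1, x2, x3⟩ := exists_one (D := ball (0 : ℝ × ℝ) (R + 1)) isOpen_ball isBounded_ball
    (isCompact_closedBall 0 R) (closedBall_subset_ball (by linarith))
  obtain ⟨C', hC', hw⟩ := N153.fld_w hfu
  obtain ⟨C, hC, hl⟩ := l2_w h.pos h.lim (show 0 < R + 1 by linarith)
  obtain ⟨R1, hR1, hb1⟩ := bdd_fst hF.bdd
  have hfb : tsupport f ⊆ ball (0 : ℝ × ℝ) (R + 1) := fun z hz => by
    rw [mem_ball_zero_iff]
    linarith [norm_tc z, hR' _ (hf'.2.2 hz)]
  have hK : IsCompact (tsupport f \ (Wp ∪ Wm)) := hf'.cs.isCompact.diff hF.op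
  have hs1 : |s| = 1 := by rcases hs with rfl | rfl <;> norm_num
  have hs2 : s ^ 2 = 1 := by rw [← sq_abs, hs1, one_pow]
  have hκ : (0 : ℝ) ≤ 8 / Real.pi := by positivity
  obtain ⟨r, hr, hrs⟩ := (hf'.cs.isCompact.image OBSV.tc_cont).exists_cthickening_subset_open
    h.ds.conf.isOpen (by rintro _ ⟨z, hz, rfl⟩; exact hf'.2.2 hz)
  have hKc := (hf'.cs.isCompact.image OBSV.tc_cont).cthickening (r := r)
  refine toGauss_approx (L1 := A) (L2 := √(8 / Real.pi) * (2 * R1 * A))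
    (L3 := C * (2 * A ^ 2 + 2 * ∫ z, χ z ^ 2) + 1) (fun n => CA_finite (hF.adm n).arcs.fin)
    (fun n => OBSV.CA_nonempty _ _) (mul_nonneg hκ (V_nonneg hF.bdd hf')) fun τ hτ => ?_
  obtain ⟨ρ, r1, r2, r3, r4⟩ := exists_cut hK (measure_mono_null (sdiff_subset_sdiff_left hf'.2.2) h0)
    isOpen_ball (sdiff_subset.trans hfb) (lt_min hτ (pow_pos hτ 2))
  have hk : TestOn (dm D) fun z => ρ z * f z := hf'.mulSm r1.1
  have hku := hk.mono (subset_univ _)
  have hkb : ∀ z, |ρ z * f z| ≤ A * ρ z := fun z => by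
    rw [abs_mul, abs_of_nonneg (r2 z).1, mul_comm]
    exact mul_le_mul_of_nonneg_right (hA z) (r2 z).1
  have h1u : TestOn univ fun z => f z - ρ z * f z := hfu.sub hku
  have h1 : TestOn (Wp ∪ Wm) fun z => f z - ρ z * f z := by
    refine ⟨h1u.1, h1u.2.1, fun z hz => by_contra fun hc => ?_⟩
    refine notMem_tsupport_iff_eventuallyEq.2 ?_ hz
    by_cases hz' : z ∈ tsupport f
    · filter_upwards [r3.filter_mono (nhds_le_nhdsSet (mem_sdiff_of_mem hz' hc))] with w hw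
      simp [hw]
    · filter_upwards [notMem_tsupport_iff_eventuallyEq.1 hz'] with w hw
      simp [hw]
  have r5 : ∫ z, ρ z ^ 2 ≤ τ ^ 2 :=
    (integral_mono r1.intSq r1.int fun z => by nlinarith [r2 z]).trans (r4.trans (min_le_right _ _))
  have r6 : ∫ z, (ρ z * f z) ^ 2 ≤ (A * τ) ^ 2 := by
    refine (integral_mono hk.intSq (r1.intSq.const_mul (A ^ 2)) fun z => ?_).trans ?_
    · simpa only [sq_abs, mul_pow] using pow_le_pow_left₀ (abs_nonneg _) (hkb z) 2
    · rw [integral_const_mul, mul_pow]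
      exact mul_le_mul_of_nonneg_left r5 (sq_nonneg A)
  refine ⟨fun n g => s * - hf (δ n) (fun z => f z - ρ z * f z) g,
    s * ∫ z, uu Wp Wm z * (f z - ρ z * f z), 8 / Real.pi * V (Wp ∪ Wm) fun z => f z - ρ z * f z,
    mul_nonneg hκ (V_nonneg hF.bdd h1), ?_, ?_, fun j => ?_, ?_⟩
  · rw [← mul_sub, abs_mul, hs1, one_mul, ← integral_sub (uu_int hF.opP hF.opM h1.int)
      (uu_int hF.opP hF.opM hf'.int)]
    refine abs_integral_le_integral_abs.trans ((integral_mono ((uu_int hF.opP hF.opM h1.int).sub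
      (uu_int hF.opP hF.opM hf'.int)).abs (r1.int.const_mul A) fun z => ?_).trans ?_)
    · simp only [Pi.sub_apply]
      rw [← mul_sub, abs_mul, sub_sub_cancel_left, abs_neg]
      exact (mul_le_of_le_one_left (abs_nonneg _) (uu_le _ _ z)).trans (hkb z)
    · rw [integral_const_mul]
      exact mul_le_mul_of_nonneg_left (r4.trans (min_le_left _ _)) hA0
  · rw [Real.sqrt_mul hκ, Real.sqrt_mul hκ, ← mul_sub, abs_mul, abs_of_nonneg (Real.sqrt_nonneg _),
      mul_assoc]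
    refine mul_le_mul_of_nonneg_left ?_ (Real.sqrt_nonneg _)
    have b0 : √(4 * R1 ^ 2 * ∫ z, (ρ z * f z) ^ 2) ≤ 2 * R1 * A * τ :=
      Real.sqrt_le_iff.2 ⟨by positivity, by nlinarith [sq_nonneg R1]⟩
    have b1 := sqrt_V hF.bdd hb1 hfu h1u
    have b2 := sqrt_V hF.bdd hb1 h1u hfu
    simp only [sub_sub_cancel, sub_sub_cancel_left, neg_sq] at b1 b2
    exact abs_le.2 ⟨by linarith, by linarith⟩
  · have h2 := (hF.gauss h1 j).const_mul (s ^ j)
    rw [← (gm_scale s _ j).1, hs2, one_mul] at h2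
    refine h2.congr fun n => ?_
    rw [← Ex_const_mul]
    exact Ex_congr fun g _ => by rw [← mul_pow, mul_sub]
  have hf0 : TestOn (ball (0 : ℝ × ℝ) (R + 1)) fun z => A * ρ z + τ * χ z :=
    (r1.smul A).add (x1.smul τ)
  have r7 : ∫ z, (A * ρ z + τ * χ z) ^ 2 ≤ (2 * A ^ 2 + 2 * ∫ z, χ z ^ 2) * τ ^ 2 := by
    refine (integral_mono hf0.intSq ((r1.intSq.const_mul (2 * A ^ 2)).add
      (x1.intSq.const_mul (2 * τ ^ 2))) fun z => ?_).trans ?_
    · simp only [Pi.add_apply]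
      nlinarith [sq_nonneg (A * ρ z - τ * χ z)]
    · simp only [Pi.add_apply]
      rw [integral_add (r1.intSq.const_mul _) (x1.intSq.const_mul _), integral_const_mul,
        integral_const_mul]
      nlinarith [sq_nonneg A]
  have hsm : ∀ᶠ n in atTop, C' * δ n < √3 / 2 * τ :=
    (h.lim.const_mul C').eventually (gt_mem_nhds (by rw [mul_zero]; exact mul_pos s3_pos hτ))
  filter_upwards [hl _ hf0 (fun z => add_nonneg (mul_nonneg hA0 (r2 z).1) (mul_nonneg hτ.le (x2 z)))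
    (τ ^ 2) (by positivity), hsg, hsm, h.inner hKc hrs, h.ds.inner hKc hrs,
    h.small (show 0 < r / 4 by positivity)] with n a1 a2 a3 a4 a5 a6
  have hd := h.pos n
  have hin : ∀ v, (∃ z ∈ tsupport f, dist (dp (δ n) v) z ≤ 2 * δ n) →
      v ∈ P153.F.Dom.inner (p n) (S n) := by
    rintro v ⟨z, hz, hzv⟩
    refine a4 v (mem_cthickening_of_dist_le _ (tc z) r _ (mem_image_of_mem _ hz) ?_)
    rw [PP_eq, dist_eq_norm]
    have b1 := Complex.norm_le_abs_re_add_abs_im (tc (dp (δ n) v) - tc z)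
    rw [Prod.dist_eq, max_le_iff, Real.dist_eq, Real.dist_eq] at hzv
    exact b1.trans (by
      change |(dp (δ n) v).1 - z.1| + |(dp (δ n) v).2 - z.2| ≤ r
      linarith [hzv.1, hzv.2])
  obtain ⟨d, d1, d2⟩ := hw (δ n) hd _ (p n) (S n) (fun z hz => by
    obtain ⟨y, hy, he⟩ := a5 (self_subset_cthickening _ (mem_image_of_mem tc hz))
    have h6 : y = z := congrArg OBSV.tp he
    rw [← h6]
    exact interior_subset hy) hin
  have hib : ∀ v ∈ P153.F.Dom.inner (p n) (S n), dp (δ n) v ∈ closedBall (0 : ℝ × ℝ) R := fun v hv => by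
    rw [mem_closedBall_zero_iff]
    refine (norm_tc _).trans ?_
    rw [← PP_eq]
    exact hR n _ (subset_closure (N153.PP_DC hd (h.poly n) (h.encl n) hv))
  have hsub : P153.F.Dom.inner (p n) (S n) ⊆ Bx (δ n) (R + 1) := fun v hv =>
    (mem_Bx hd).2 (closedBall_subset_ball (by linarith) (hib v hv))
  have key := a1 (F n) (eta (M n)) (fun x hx => by
    rw [mem_ball_zero_iff]; linarith [(hF.adm n).bF x hx]) (eta_or _)
    (fun v => δ n ^ 2 * (√3 / 2 * (ρ (dp (δ n) v) * f (dp (δ n) v))) +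
      if v ∈ P153.F.Dom.inner (p n) (S n) then d v else 0) fun v => by
      refine (abs_add_le _ _).trans ?_
      rw [mul_add, mul_add, abs_mul, abs_mul, abs_of_nonneg (sq_nonneg _), abs_of_pos s3_pos]
      refine add_le_add (by gcongr; exact hkb _) ?_
      split_ifs with hv
      · rw [x3 _ (hib v hv)]
        nlinarith [d1 v, sq_nonneg (δ n)]
      · rw [abs_zero]
        exact mul_nonneg (sq_nonneg _) (mul_nonneg s3_pos.le (mul_nonneg hτ.le (x2 _)))
  refine le_trans (le_of_eq (Ex_congr fun g _ => ?_)) (key.trans (by nlinarith))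
  have e1 := d2 (DRV.bk (p n) (S n) g)
  rw [N153.hv_bk (fun w hw => hin w ⟨_, subset_tsupport _ hw, by rw [dist_self]; positivity⟩), a2]
    at e1
  have e2 : lf (P153.F.Dom.inner (p n) (S n)) d (vh (P153.F.Dom.inner (p n) (S n)) (DRV.bk (p n) (S n) g)) =
      -s * ∑ v ∈ Bx (δ n) (R + 1), (if v ∈ P153.F.Dom.inner (p n) (S n) then d v else 0) * (g v : ℝ) := by
    rw [← Finset.sum_subset hsub (fun v _ hv => by rw [if_neg hv, zero_mul]), Finset.mul_sum, lf]
    refine Finset.sum_congr rfl fun v hv => ?_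
    rw [vh, if_pos hv, if_pos hv, DRV.bk, if_pos (show v ∈ Final.verts (S n) from
      (P153.F.Dom.dl_inner.1 hv).1), ← a2]
    push_cast
    ring
  have e3 : hf (δ n) f g - hf (δ n) (fun z => f z - ρ z * f z) g = ∑ v ∈ Bx (δ n) (R + 1),
      δ n ^ 2 * (√3 / 2 * (ρ (dp (δ n) v) * f (dp (δ n) v))) * (g v : ℝ) := by
    rw [hf, hf, hv_Bx hd fun z hz => hfb (subset_tsupport _ hz), hv_Bx hd (hF.supp h1), ← hB_sub, hB,
      Finset.mul_sum]
    exact Finset.sum_congr rfl fun v _ => by rw [tl_dp]; ring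
  simp only [add_mul, Finset.sum_add_distrib]
  rw [← e3, fldF, eq_add_of_sub_eq e1, e2]
  linear_combination (hf (δ n) f g - hf (δ n) (fun z => f z - ρ z * f z) g + ∑ v ∈ Bx (δ n) (R + 1),
    (if v ∈ P153.F.Dom.inner (p n) (S n) then d v else 0) * (g v : ℝ)) ^ 2 * hs2

end Vale.Agent.N153J
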