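import Vale.Agent.N153J.Near

/-!
N153J: the joint subsequential limits of the interfaces in the domain and in the disc.
-/

set_option autoImplicit false
set_option linter.unusedVariables false

namespace Vale.Agent.N153J

open MeasureTheory ProbabilityTheory Filter Topology Set Metric
open scoped NNReal ENNReal
open Vale.Agent.P153 Vale.Agent.P153.R2 Vale.Agent.N153
open Vale.Agent.P153.R2.Final (Heights law mean IsInterface)
open Vale.Agent.P153.R2.UNIQ
open Vale.Agent.P153.R2.C1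

variable {D : Set ℂ} {φ : ℂ → ℂ} {δ : ℕ → ℝ} {N k : ℕ → ℕ} {p : ∀ n, ZMod (N n) → ℤ × ℤ}
  {S : ℕ → Finset Final.Tri} {φn gn : ℕ → ℂ → ℂ}
  [MeasurableSpace C(unitInterval, ℂ)] [BorelSpace C(unitInterval, ℂ)]
  [MeasurableSpace C(ℝ≥0, ℝ)] [BorelSpace C(ℝ≥0, ℝ)]

/-- The subsequential limits of the curves, their images in the disc and the drivers. -/
theorem sub_joint (hdrv : T_drv) (hcross : T_cross) (hend : T_end)
    (hA : LS D φ δ N k p S φn gn) :
    ∃ (θ : ℕ → ℕ) (_ : StrictMono θ)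
      (ν : Measure ((C(unitInterval, ℂ) × C(ℝ≥0, ℝ)) × (C(unitInterval, ℂ) × C(unitInterval, ℂ))))
      (_ : IsProbabilityMeasure ν) (Y : ∀ n, Heights (p (θ n)) (k (θ n)) (S (θ n)) →
        (C(unitInterval, ℂ) × C(ℝ≥0, ℝ)) × (C(unitInterval, ℂ) × C(unitInterval, ℂ))),
      IsDrvLaw (ν.map fun q => q.1.2) ∧
      (∀ᵐ q ∂ν, Gr cay 1 q.2.1 q.1.2 ∧ q.2.2 = (extC hA.ds.conf).comp q.2.1) ∧
      (∀ n (ω : Heights (p (θ n)) (k (θ n)) (S (θ n))),
        IsInterface (p (θ n)) (k (θ n)) (S (θ n)) (δ (θ n)) ω (Y n ω).2.2 ∧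
        ∀ t, (Y n ω).2.1 t = gn (θ n) ((Y n ω).2.2 t)) ∧
      ∀ F, Continuous F → (∃ M : ℝ, ∀ y, |F y| ≤ M) →
        Tendsto (fun n => ∫ ω, F (Y n ω) ∂(uniformOn univ)) atTop (𝓝 (∫ q, F q ∂ν)) := by
  classical
  obtain ⟨x, hx⟩ := exists_itf hA
  obtain ⟨y, hy⟩ := exists_pull hA hx
  -- the finite probability spaces
  set s : ∀ n : ℕ, Set UNIQ.Hg := fun n => Heights (p n) (k n) (S n) with hs
  have hsf : ∀ n, (s n).Finite := fun n =>
    (i_fin (N n) (k n) (p n) (S n) (hA.poly n) (hA.encl n)).1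
  have hsn : ∀ n, (s n).Nonempty := fun n =>
    (i_fin (N n) (k n) (p n) (S n) (hA.poly n) (hA.encl n)).2
  let P : ∀ n, Measure (s n) := fun n => uniformOn univ
  have hP : ∀ n, IsProbabilityMeasure (P n) := fun n => prob_uniformOn (s n) (hsf n) (hsn n)
  have hmean : ∀ n (F : UNIQ.Hg → ℝ), mean (law (p n) (k n) (S n)) F = ∫ ω : s n, F ω ∂(P n) :=
    fun n F => integral_uniformOn (s n) (hsf n) F
  have hmeas : ∀ n (A : Set UNIQ.Hg), law (p n) (k n) (S n) A = P n {ω : ↥(s n) | (ω : UNIQ.Hg) ∈ A} :=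
    fun n A => measure_uniformOn (s n) (hsf n) A
  have hsc : ∀ n, Countable (s n) := fun n => (hsf n).countable
  have hmf : ∀ (n : ℕ) {E : Type} [MeasurableSpace E] (f : s n → E), Measurable f :=
    fun n E _ f => measurable_of_countable f
  -- canonical reparametrisation
  set y' : ∀ n : ℕ, UNIQ.Hg → C(unitInterval, ℂ) := fun n h => rho (y n h) with hy'def
  set x' : ∀ n : ℕ, UNIQ.Hg → C(unitInterval, ℂ) := fun n h => reparam (x n h) (hIso (y n h)).symm
    with hx'def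
  have hx' : Itf δ N k p S x' := fun n h hh => interface_reparam (hx n h hh) _
  have hy' : Pull N k p S gn x' y' := fun n h hh t => hy n h hh _
  obtain ⟨η, c, w, T₀, T₁, ε, hε, hD, hlam⟩ := hdrv D φ δ N k p S φn gn hA x' y' hx' hy'
  obtain ⟨lam, hlamD, hlam⟩ := hlam
  have hlamP := hlamD.prob
  -- tightness
  have hxR : ∀ n, ∀ᵐ ω : ↥(s n) ∂(P n), ∀ t, ‖y n ω t‖ ≤ 1 := by
    intro n
    refine Eventually.of_forall fun (ω : ↥(s n)) t => ?_
    rw [hy n ω ω.2]
    exact hA.ds.norm_le n (intf_clos (hA.pos n) (hx n ω ω.2) t)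
  have hreal : ∀ (A : ∀ n : ℕ, Set UNIQ.Hg) (e : ℝ), 0 < e →
      (∀ᶠ n in atTop, (law (p n) (k n) (S n)).real (A n) ≤ e) →
      ∀ᶠ n in atTop, P n {ω : ↥(s n) | (ω : UNIQ.Hg) ∈ A n} ≤ ENNReal.ofReal e := by
    intro A e he h
    filter_upwards [h] with n hn
    rw [← hmeas]
    have hfin : law (p n) (k n) (S n) (A n) ≠ ⊤ := by
      rw [hmeas]; exact measure_ne_top _ _
    rw [Measure.real] at hn
    exact (ENNReal.le_ofReal_iff_toReal_le hfin he.le).2 hn
  have hxc : ∀ (z : ℂ) (r : ℝ), 0 < r → ∀ e : ENNReal, 0 < e →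
      ∃ m : ℕ, ∀ᶠ n in atTop, P n {ω : ↥(s n) | Cross (y n ω) z r (3 * r) m} ≤ e := by
    intro z r hr e he
    by_cases hetop : e = ⊤
    · exact ⟨0, Eventually.of_forall fun n => by rw [hetop]; exact le_top⟩
    · have he0 : 0 < e.toReal := ENNReal.toReal_pos he.ne' hetop
      obtain ⟨m, hm⟩ := hcross D φ δ N k p S φn gn hA x y hx hy z r hr e.toReal he0
      refine ⟨m, ?_⟩
      filter_upwards [hreal (fun n => {h | Cross (y n h) z r (3 * r) m}) e.toReal he0 hm] with n hn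
      rwa [ENNReal.ofReal_toReal hetop] at hn
  have hwlim : ∀ f : C(ℝ≥0, ℝ) → ℝ, Continuous f → (∃ M, ∀ y, |f y| ≤ M) →
      Tendsto (fun n => ∫ y, f y ∂((P n).map fun ω : ↥(s n) => w n ω)) atTop
        (𝓝 (∫ y, f y ∂lam)) := by
    intro f hf hM
    refine (hlam f hf hM).congr fun n => ?_
    rw [hmean, integral_map (hmf n _).aemeasurable hf.aestronglyMeasurable]
  have hwt : IsTightMeasureSet (range fun n => (P n).map fun ω : ↥(s n) => w n ω) :=
    tight_of_lim _ (fun n => Measure.isProbabilityMeasure_map (hmf n _).aemeasurable) lam hlamP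
      hwlim
  obtain ⟨θ, hθ, μ, hμ, hjoint⟩ := joint_main (fun n => s n) P hP (fun n ω => y n ω)
    (fun n => hmf n _) (fun n ω => w n ω) (fun n => hmf n _) 1 hxR hxc hwt id
  simp only [id] at hjoint
  -- the marginals
  have hsnd : μ.map Prod.snd = lam := by
    refine lim_unique _ _ (Measure.isProbabilityMeasure_map measurable_snd.aemeasurable) hlamP ?_
    intro f hf hM
    obtain ⟨M, hM'⟩ := hM
    have h1 := hjoint (fun q => f q.2) (hf.comp continuous_snd) ⟨M, fun q => hM' q.2⟩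
    have h2 := (hwlim f hf ⟨M, hM'⟩).comp hθ.tendsto_atTop
    rw [integral_map measurable_snd.aemeasurable hf.aestronglyMeasurable]
    refine tendsto_nhds_unique h1 (h2.congr fun n => ?_)
    simp only [Function.comp]
    exact integral_map (hmf _ _).aemeasurable hf.aestronglyMeasurable
  have hgood : ∀ᵐ q ∂μ, ARCX.NoSwallowR (fun t => q.2 t.toNNReal) ∧
      ARCX.NoSwallowH (fun t => q.2 t.toNNReal) := by
    have h1 := i_bess lam hlamD
    rw [← hsnd] at h1
    exact ae_of_ae_map measurable_snd.aemeasurable h1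
  have hendμ : ∀ᵐ q ∂μ, ∀ t₁ t₂ : unitInterval, t₁ ≤ t₂ → q.1 t₁ = 1 → q.1 t₂ = 1 := by
    have hrat : ∀ j : ℕ, ∀ᵐ q ∂μ, ∀ t₁ t₂ : unitInterval, t₁ ≤ t₂ → q.1 t₁ = 1 →
        dist (q.1 t₂) 1 ≤ 1 / ((j : ℝ) + 1) := by
      intro j
      have hj : (0 : ℝ) < 1 / ((j : ℝ) + 1) := by positivity
      set Bad : Set (C(unitInterval, ℂ) × C(ℝ≥0, ℝ)) := {q | ¬ ∀ t₁ t₂ : unitInterval, t₁ ≤ t₂ →
        q.1 t₁ = 1 → dist (q.1 t₂) 1 ≤ 1 / ((j : ℝ) + 1)} with hBad
      have hBle : ∀ e : ℝ, 0 < e → μ Bad ≤ ENNReal.ofReal e := by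
        intro e he
        obtain ⟨r', hr', hev⟩ := hend D φ δ N k p S φn gn hA x' hx' _ hj e he
        set U : Set (C(unitInterval, ℂ) × C(ℝ≥0, ℝ)) := {q | ∃ t₁ t₂ : unitInterval, t₁ ≤ t₂ ∧
          dist (q.1 t₁) 1 < r' ∧ 1 / ((j : ℝ) + 1) < dist (q.1 t₂) 1} with hU
        have hUo : IsOpen U := by
          have : U = ⋃ (t₁ : unitInterval) (t₂ : unitInterval) (_ : t₁ ≤ t₂),
              ({q : C(unitInterval, ℂ) × C(ℝ≥0, ℝ) | dist (q.1 t₁) 1 < r'} ∩
                {q | 1 / ((j : ℝ) + 1) < dist (q.1 t₂) 1}) := by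
            ext q
            simp only [hU, mem_ofPred_eq, mem_iUnion, mem_inter_iff, exists_prop]
          rw [this]
          refine isOpen_iUnion fun t₁ => isOpen_iUnion fun t₂ => isOpen_iUnion fun _ => ?_
          refine IsOpen.inter ?_ ?_
          · exact isOpen_lt (((continuous_eval_const t₁).comp continuous_fst).dist
              continuous_const) continuous_const
          · exact isOpen_lt continuous_const (((continuous_eval_const t₂).comp
              continuous_fst).dist continuous_const)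
        have hsub : Bad ⊆ U := by
          intro q hq
          simp only [hBad, mem_ofPred_eq, not_forall, not_le] at hq
          obtain ⟨t₁, t₂, h12, h1, h2⟩ := hq
          exact ⟨t₁, t₂, h12, by rw [h1, dist_self]; exact hr', h2⟩
        refine (measure_mono hsub).trans ?_
        have hYm : ∀ n, Measurable fun ω : s (θ n) => (rho (y (θ n) ω), w (θ n) ω) := fun n =>
          hmf _ _
        refine open_le (fun n => (P (θ n)).map fun ω : ↥(s (θ n)) =>
          (rho (y (θ n) ω), w (θ n) ω))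
          (fun n => Measure.isProbabilityMeasure_map (hYm n).aemeasurable) μ hμ ?_ hUo ?_
        · intro f hf hM
          refine (hjoint f hf hM).congr fun n => ?_
          exact (integral_map (hYm n).aemeasurable hf.aestronglyMeasurable).symm
        · filter_upwards [hθ.tendsto_atTop.eventually (hreal (fun n => {h | ∃ t₁ t₂ :
            unitInterval, t₁ ≤ t₂ ∧ dist (gn n (x' n h t₁)) 1 < r' ∧
            1 / ((j : ℝ) + 1) < dist (gn n (x' n h t₂)) 1}) e he hev)] with n hn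
          rw [Measure.map_apply (hYm n) hUo.measurableSet]
          refine le_trans (measure_mono ?_) hn
          rintro ω ⟨t₁, t₂, a1, a2, a3⟩
          refine ⟨t₁, t₂, a1, ?_, ?_⟩
          · rw [← hy' _ _ ω.2]; exact a2
          · rw [← hy' _ _ ω.2]; exact a3
      have hB0 : μ Bad = 0 := by
        by_contra hne
        have hpos : 0 < μ Bad := pos_iff_ne_zero.2 hne
        have hnt : μ Bad ≠ ⊤ := measure_ne_top _ _
        have h1 := hBle ((μ Bad).toReal / 2) (by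
          have := ENNReal.toReal_pos hne hnt; positivity)
        have h2 : ENNReal.ofReal ((μ Bad).toReal / 2) < μ Bad := by
          rw [ENNReal.ofReal_lt_iff_lt_toReal (by positivity) hnt]
          have := ENNReal.toReal_pos hne hnt
          linarith
        exact absurd h1 (not_le.2 h2)
      exact hB0
    filter_upwards [ae_all_iff.2 hrat] with q hq t₁ t₂ h12 h1
    have h2 : dist (q.1 t₂) 1 ≤ 0 := by
      refine ge_of_tendsto' tendsto_one_div_add_atTop_nhds_zero_nat fun j => hq j t₁ t₂ h12 h1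
    exact dist_le_zero.1 h2
  -- the capacity parametrisation
  have hcap : ∀ (n : ℕ) (ω : s n), ∃ r : unitInterval ≃o unitInterval,
      ∀ t : unitInterval, (t : ℝ) ≤ T₀ n ω → (r t : ℝ) = c n ω t / (1 + c n ω t) :=
    fun n ω => exists_cap (hD n ω ω.2)
  choose rr hrr using hcap
  set Γ : ∀ n, s n → C(unitInterval, ℂ) := fun n ω => reparam (y' n ω) (rr n ω).symm with hΓ
  set X : ∀ n, s n → C(unitInterval, ℂ) := fun n ω => reparam (x' n ω) (rr n ω).symm with hX
  have hXΓ : ∀ e > 0, ∀ᶠ n in atTop, ∀ ω : s n,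
      dist (X n ω) ((extC hA.ds.conf).comp (Γ n ω)) ≤ e := by
    intro e he
    filter_upwards [hA.ds.near he] with n hn ω
    rw [ContinuousMap.dist_le he.le]
    intro t
    have h1 := intf_clos (hA.pos n) (hx' n ω ω.2) ((rr n ω).symm t)
    have h2 : Γ n ω t = gn n (x' n ω ((rr n ω).symm t)) := hy' n ω ω.2 _
    rw [ContinuousMap.comp_apply, h2, extC_eq _ (hA.ds.norm_le n h1)]
    exact (hn _ h1).le
  have hdetseq : ∀ (q : C(unitInterval, ℂ) × C(ℝ≥0, ℝ)),
      (ARCX.NoSwallowR (fun t => q.2 t.toNNReal) ∧ ARCX.NoSwallowH (fun t => q.2 t.toNNReal)) →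
      (∀ t₁ t₂ : unitInterval, t₁ ≤ t₂ → q.1 t₁ = 1 → q.1 t₂ = 1) →
      ∀ (κ : ℕ → ℕ), StrictMono κ → ∀ ω : ∀ j, s (θ (κ j)),
      Tendsto (fun j => (rho (y (θ (κ j)) (ω j)), w (θ (κ j)) (ω j))) atTop (𝓝 q) →
      ∃ G, Gr cay 1 G q.2 ∧ Tendsto (fun j => (Γ (θ (κ j)) (ω j), X (θ (κ j)) (ω j))) atTop
        (𝓝 (G, (extC hA.ds.conf).comp G)) := by
    intro q hq1 hq2 κ hκ ω hlim
    have hθκ : Tendsto (fun j => θ (κ j)) atTop atTop :=
      hθ.tendsto_atTop.comp hκ.tendsto_atTop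
    have h1 : Tendsto (fun j => y' (θ (κ j)) (ω j)) atTop (𝓝 q.1) :=
      (continuous_fst.tendsto q).comp hlim
    have h2 : Tendsto (fun j => w (θ (κ j)) (ω j)) atTop (𝓝 q.2) :=
      (continuous_snd.tendsto q).comp hlim
    obtain ⟨γ, G, hγ, hG1, hG, hlimG⟩ := det_tr (fun j => cay) cay (fun j => 1) 1
      (fun j => w (θ (κ j)) (ω j)) q.2 (fun j => y' (θ (κ j)) (ω j))
      (fun j => Γ (θ (κ j)) (ω j)) q.1 (fun j => η (θ (κ j)) (ω j))
      (fun j => c (θ (κ j)) (ω j)) (fun j => T₀ (θ (κ j)) (ω j)) (fun j => T₁ (θ (κ j)) (ω j))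
      (fun j => ε (θ (κ j))) cay_uni (by
        rw [Metric.tendstoUniformlyOn_iff]
        intro e he
        exact Eventually.of_forall fun j z hz => by rwa [dist_self])
      tendsto_const_nhds (hε.comp hθκ) (fun j => hD _ _ (ω j).2)
      (fun j => rr (θ (κ j)) (ω j)) (fun j t => by
        change y' (θ (κ j)) (ω j) ((rr (θ (κ j)) (ω j)).symm (rr (θ (κ j)) (ω j) t)) = _
        rw [OrderIso.symm_apply_apply]) (fun j t ht => hrr _ _ t ht) h2 h1 hq2 hq1.1 hq1.2
    refine ⟨G, ⟨hG1, γ, hγ, hG⟩, hlimG.prodMk_nhds ?_⟩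
    have h3 := ((ContinuousMap.continuous_postcomp (extC hA.ds.conf)).tendsto G).comp hlimG
    rw [Metric.tendsto_nhds] at h3 ⊢
    intro e he
    filter_upwards [h3 (e / 2) (half_pos he), hθκ.eventually (hXΓ (e / 2) (half_pos he))] with j
      a1 a2
    have a3 := dist_triangle (X (θ (κ j)) (ω j)) ((extC hA.ds.conf).comp (Γ (θ (κ j)) (ω j)))
      ((extC hA.ds.conf).comp G)
    have a4 := a2 (ω j)
    have a5 : dist ((extC hA.ds.conf).comp (Γ (θ (κ j)) (ω j))) ((extC hA.ds.conf).comp G) <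
      e / 2 := a1
    linarith
  have : PolishSpace (C(unitInterval, ℂ) × C(unitInterval, ℂ)) := polish_prod
  obtain ⟨ν', hν', hfst', hgr', hlim'⟩ := ecm_polish (fun n => s (θ n)) (fun n => P (θ n))
    (fun n => hP (θ n)) (fun n ω => (rho (y (θ n) ω), w (θ n) ω)) (fun n => hmf _ _)
    (fun n ω => (Γ (θ n) ω, X (θ n) ω)) (fun n => hmf _ _) μ hjoint (by
      filter_upwards [hgood, hendμ] with q hq1 hq2
      by_cases hex : ∃ (κ : ℕ → ℕ) (_ : StrictMono κ) (ω : ∀ j, s (θ (κ j))),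
          Tendsto (fun j => (rho (y (θ (κ j)) (ω j)), w (θ (κ j)) (ω j))) atTop (𝓝 q)
      · obtain ⟨κ, hκ, ω, hlim⟩ := hex
        obtain ⟨G, hG, -⟩ := hdetseq q hq1 hq2 κ hκ ω hlim
        refine ⟨(G, (extC hA.ds.conf).comp G), fun κ' hκ' ω' hlim' => ?_⟩
        obtain ⟨G', hG', hlimG'⟩ := hdetseq q hq1 hq2 κ' hκ' ω' hlim'
        rwa [hG'.unique hG] at hlimG'
      · exact ⟨(q.1, q.1), fun κ hκ ω hlim => absurd ⟨κ, hκ, ω, hlim⟩ hex⟩)
  refine ⟨θ, hθ, ν', hν', fun n ω => ((rho (y (θ n) ω), w (θ n) ω), (Γ (θ n) ω, X (θ n) ω)), ?_, ?_,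
    fun n ω => ⟨interface_reparam (hx' _ _ ω.2) _, fun t => hy' _ _ ω.2 _⟩, hlim'⟩
  · have h1 : (ν'.map fun q => q.1.2) = lam := by
      rw [← hsnd, ← hfst', Measure.map_map measurable_snd measurable_fst]
      rfl
    rw [h1]
    exact hlamD
  · have h2 : ∀ᵐ q ∂ν', (ARCX.NoSwallowR (fun t => q.1.2 t.toNNReal) ∧
        ARCX.NoSwallowH (fun t => q.1.2 t.toNNReal)) := by
      rw [← hfst'] at hgood
      exact ae_of_ae_map measurable_fst.aemeasurable hgood
    have h3 : ∀ᵐ q ∂ν', ∀ t₁ t₂ : unitInterval, t₁ ≤ t₂ → q.1.1 t₁ = 1 → q.1.1 t₂ = 1 := by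
      rw [← hfst'] at hendμ
      exact ae_of_ae_map measurable_fst.aemeasurable hendμ
    filter_upwards [h2, h3, hgr'] with q hq1 hq2 hq3
    obtain ⟨κ, hκ, ω, hl1, hl2⟩ := hq3
    obtain ⟨G, hG, hlimG⟩ := hdetseq q.1 hq1 hq2 κ hκ ω hl1
    have : (G, (extC hA.ds.conf).comp G) = q.2 := tendsto_nhds_unique hlimG hl2
    rw [← this]
    exact ⟨hG, rfl⟩

end Vale.Agent.N153J
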