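import Vale.Agent.N153.Main

/-!
N153J: the two sides of a curve which crosses the closed unit disc from `-1` to `1`.
-/

set_option autoImplicit false
set_option linter.unusedVariables false

namespace Vale.Agent.N153J

open Set Metric Filter Topology Complex
open Vale.Agent.N153 (prj continuous_prj norm_prj prj_eq mem_cb mem_ob)
open _root_.P153.TOP

/-- Curves in the closed disc from `-1` to `1`. -/
structure Crs (y : C(unitInterval, ℂ)) : Prop where
  zero : y 0 = -1
  one : y 1 = 1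
  le : ∀ t, ‖y t‖ ≤ 1

/-- Simple curves from `-1` to `1` in the open disc. -/
structure Chord (y : C(unitInterval, ℂ)) : Prop extends Crs y where
  inj : Function.Injective y
  lt : ∀ t, t ≠ 0 → t ≠ 1 → ‖y t‖ < 1

/-- Joined in the closed disc off the curve. -/
def Jn (y : C(unitInterval, ℂ)) (w ζ : ℂ) : Prop := JoinedIn (closedBall 0 1 \ range y) w ζ

/-- The side of the point `ζ`. -/
def Sd (y : C(unitInterval, ℂ)) (ζ : ℂ) : Set ℂ := {w | ‖w‖ < 1 ∧ Jn y w ζ}

variable {y : C(unitInterval, ℂ)}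

theorem closed_range (y : C(unitInterval, ℂ)) : IsClosed (range y) :=
  (isCompact_range y.continuous).isClosed

theorem slit_of {a : ℂ} (h1 : ‖a‖ ≤ 1) (h2 : a ≠ 1) : 1 - a ∈ slitPlane := by
  rw [mem_slitPlane_iff]
  by_contra hc
  push Not at hc
  obtain ⟨c1, c2⟩ := hc
  simp only [sub_re, one_re, sub_im, one_im, zero_sub, neg_eq_zero] at c1 c2
  have h3 := (re_le_norm a).trans h1
  exact h2 (Complex.ext (by simp; linarith) (by simpa using c2))

theorem edge {a : unitInterval → ℂ} (ha : Continuous a) (h1 : ∀ t, ‖a t‖ ≤ 1) (h2 : ∀ t, a t ≠ 1)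
    {c : ℂ} (hc : c ≠ 0) {L : unitInterval → ℂ} (hL : Continuous L)
    (he : ∀ t, exp (L t) = c * (1 - a t)) :
    (L 1).im - (L 0).im = (1 - a 1).arg - (1 - a 0).arg := by
  have hG : Continuous fun t => log c + log (1 - a t) :=
    continuous_const.add ((continuous_const.sub ha).clog fun t => slit_of (h1 t) (h2 t))
  have h3 := log_diff_const (A := (univ : Set unitInterval)) isPreconnected_univ hL.continuousOn
    hG.continuousOn (fun t _ => by
      rw [he, exp_add, exp_log hc, exp_log (slitPlane_ne_zero (slit_of (h1 t) (h2 t)))])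
    (mem_univ 1) (mem_univ 0)
  have h4 := congrArg Complex.im h3
  simp only [sub_im, add_im, log_im] at h4
  linarith

theorem arg_pos {z : ℂ} (h : 0 < z.im) : 0 < z.arg :=
  lt_of_le_of_ne (arg_nonneg_iff.2 h.le) fun he => h.ne' (arg_eq_zero_iff.1 he.symm).2

theorem inv_im_neg {z : ℂ} (h : 0 < z.im) : z⁻¹.im < 0 := by
  rw [inv_im, neg_div, neg_lt_zero]
  exact div_pos h (normSq_pos.2 (by rintro rfl; simp at h))

theorem inv_im_pos {z : ℂ} (h : z.im < 0) : 0 < z⁻¹.im := by
  rw [inv_im]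
  exact div_pos (by linarith) (normSq_pos.2 (by rintro rfl; simp at h))

/-- **Crossing.** -/
theorem cross (h : Crs y) {a b : ℂ} (ha : ‖a‖ = 1) (ha' : 0 < a.im) (hb : ‖b‖ = 1)
    (hb' : b.im < 0) : ¬ Jn y a b := by
  rintro ⟨c, hc⟩
  have hne : ∀ s t, c s - y t ≠ 0 := fun s t he =>
    (hc s).2 ⟨t, (sub_eq_zero.1 he).symm⟩
  have hcn : ∀ s, ‖c s‖ ≤ 1 := fun s => mem_cb.1 (hc s).1
  let pr : ℝ → unitInterval := projIcc 0 1 zero_le_one
  have hpr : Continuous pr := continuous_projIcc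
  have hpv : ∀ t : unitInterval, pr t = t := fun t => projIcc_val _ t
  have hp0 : pr 0 = 0 := hpv 0
  have hp1 : pr 1 = 1 := hpv 1
  obtain ⟨L, hL, hL'⟩ := hasLogOn_of_convex (convex_univ (E := ℝ × ℝ))
    (fun q => c (pr q.1) - y (pr q.2)) (by fun_prop) fun q _ => hne _ _
  rw [continuousOn_univ] at hL
  replace hL' : ∀ s t : ℝ, exp (L (s, t)) = c (pr s) - y (pr t) :=
    fun s t => hL' (s, t) (mem_univ _)
  have ha0 : a ≠ 0 := by rintro rfl; simp at ha
  have hb0 : b ≠ 0 := by rintro rfl; simp at hb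
  have key : ∀ (s : ℝ) (u : ℂ), u ≠ 0 → ‖u‖ = 1 → c (pr s) = u →
      (L (s, 1)).im - (L (s, 0)).im = (1 - u⁻¹).arg - (1 + u⁻¹).arg := by
    intro s u hu0 hu hs
    have := edge (a := fun t => y t * u⁻¹) (by fun_prop)
      (fun t => by rw [norm_mul, norm_inv, hu, inv_one, mul_one]; exact h.le t)
      (fun t he => hne (pr s) t (by
        rw [hs, sub_eq_zero]
        field_simp at he
        exact he.symm)) hu0 (L := fun t => L (s, t)) (by fun_prop) (fun t => by
        rw [hL', hs, hpv]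
        field_simp)
    simpa [h.zero, h.one] using this
  have e1 := key 0 a ha0 ha (by rw [hp0, c.source])
  have e2 := key 1 b hb0 hb (by rw [hp1, c.target])
  have e3 := edge (a := fun s => - c s) (by fun_prop) (fun s => by rw [norm_neg]; exact hcn s)
    (fun s he => hne s 0 (by rw [h.zero, ← he]; ring)) one_ne_zero (L := fun s => L (s, 0))
    (by fun_prop) (fun s => by rw [hL', hpv, hp0, h.zero]; ring)
  have e4 := edge (a := fun s => c s) (by fun_prop) hcn
    (fun s he => hne s 1 (by rw [h.one, he]; ring)) (neg_ne_zero.2 one_ne_zero)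
    (L := fun s => L (s, 1)) (by fun_prop)
    (fun s => by rw [hL', hpv, hp1, h.one]; ring)
  simp only [Icc.coe_one, Icc.coe_zero, c.source, c.target, sub_neg_eq_add] at e3 e4
  have ia := inv_im_neg ha'
  have ib := inv_im_pos hb'
  have p1 : 0 < (1 - a⁻¹).arg := arg_pos (by simpa using ia)
  have p2 : (1 + a⁻¹).arg < 0 := arg_neg_iff.2 (by simpa using ia)
  have p3 : (1 - b⁻¹).arg < 0 := arg_neg_iff.2 (by simpa using ib)
  have p4 : 0 < (1 + b⁻¹).arg := arg_pos (by simpa using ib)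
  have p5 : (1 + b).arg < 0 := arg_neg_iff.2 (by simpa using hb')
  have p6 : 0 < (1 + a).arg := arg_pos (by simpa using ha')
  have p7 : 0 < (1 - b).arg := arg_pos (by simpa using hb')
  have p8 : (1 - a).arg < 0 := arg_neg_iff.2 (by simpa using ha')
  linarith

/-- Connected sets join their points. -/
theorem jn_of {C : Set ℂ} (hC : IsPreconnected C) (hs : C ⊆ closedBall 0 1 \ range y) {p q : ℂ}
    (hp : p ∈ C) (hq : q ∈ C) : Jn y p q := by
  have hU : IsOpen (prj ⁻¹' (range y)ᶜ) :=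
    (closed_range y).isOpen_compl.preimage continuous_prj
  have h1 := joinedIn_of_preconnected hU hC (fun z hz => by
    rw [mem_preimage, prj_eq (mem_cb.1 (hs hz).1)]
    exact (hs hz).2) hp hq
  have h2 := (h1.map continuous_prj).mono (V := closedBall 0 1 \ range y) (by
    rintro _ ⟨z, hz, rfl⟩
    exact ⟨mem_cb.2 (norm_prj z), hz⟩)
  rwa [prj_eq (mem_cb.1 (hs hp).1), prj_eq (mem_cb.1 (hs hq).1)] at h2

theorem Chord.off (h : Chord y) {ζ : ℂ} (h1 : ‖ζ‖ = 1) (h2 : ζ.im ≠ 0) : ζ ∉ range y := by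
  rintro ⟨t, rfl⟩
  by_cases h0 : t = 0
  · rw [h0, h.zero] at h2
    simp at h2
  by_cases h3 : t = 1
  · rw [h3, h.one] at h2
    simp at h2
  exact (h.lt t h0 h3).ne h1

/-- The open arcs. -/
theorem arc_preconn (s : ℝ) : IsPreconnected {z : ℂ | ‖z‖ = 1 ∧ 0 < s * z.im} := by
  have hc : Convex ℝ {z : ℂ | 0 < s * z.im} := by
    intro x hx w hw a b ha hb hab
    simp only [mem_ofPred_eq, add_im, smul_im, smul_eq_mul] at hx hw ⊢
    rcases ha.eq_or_lt with h0 | h0
    · rw [← h0] at hab ⊢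
      rw [zero_add] at hab
      simpa [hab] using hw
    · nlinarith [mul_pos h0 hx, mul_nonneg hb hw.le]
  have hne : ∀ z ∈ {z : ℂ | 0 < s * z.im}, z ≠ 0 := by
    rintro z hz rfl
    simp at hz
  have h1 := hc.isPreconnected.image (fun z : ℂ => z / (‖z‖ : ℂ)) (continuousOn_id.div
    (by fun_prop) fun z hz => by exact_mod_cast norm_ne_zero_iff.2 (hne z hz))
  convert h1 using 1
  ext z
  constructor
  · rintro ⟨h2, h3⟩
    exact ⟨z, h3, by simp [h2]⟩
  · rintro ⟨w, hw, rfl⟩
    have h2 : 0 < ‖w‖ := norm_pos_iff.2 (hne w hw)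
    refine ⟨by simp [h2.ne'], ?_⟩
    rw [div_ofReal_im, ← mul_div_assoc]
    exact div_pos hw h2

theorem Chord.jn_arc (h : Chord y) {s : ℝ} {a b : ℂ} (ha : ‖a‖ = 1) (ha' : 0 < s * a.im)
    (hb : ‖b‖ = 1) (hb' : 0 < s * b.im) : Jn y a b :=
  jn_of (arc_preconn s) (fun z hz => ⟨mem_cb.2 hz.1.le, h.off hz.1 (by
    intro h0
    have := hz.2
    rw [h0, mul_zero] at this
    exact lt_irrefl _ this)⟩) ⟨ha, ha'⟩ ⟨hb, hb'⟩

theorem Sd_sub (y : C(unitInterval, ℂ)) (ζ : ℂ) : Sd y ζ ⊆ ball 0 1 \ range y :=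
  fun w hw => ⟨mem_ob.2 hw.1, hw.2.source_mem.2⟩

theorem off_open (y : C(unitInterval, ℂ)) : IsOpen (ball (0 : ℂ) 1 \ range y) :=
  isOpen_ball.sdiff (closed_range y)

theorem Sd_open (y : C(unitInterval, ℂ)) (ζ : ℂ) : IsOpen (Sd y ζ) := by
  rw [Metric.isOpen_iff]
  intro w hw
  obtain ⟨r, hr, hs⟩ := Metric.isOpen_iff.1 (off_open y) w (Sd_sub y ζ hw)
  refine ⟨r, hr, fun z hz => ⟨mem_ob.1 (hs hz).1, JoinedIn.trans ?_ hw.2⟩⟩
  exact jn_of (convex_ball w r).isPreconnected
    (fun x hx => ⟨ball_subset_closedBall (hs hx).1, (hs hx).2⟩) hz (mem_ball_self hr)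

theorem Sd_disj (h : Crs y) : Disjoint (Sd y I) (Sd y (-I)) := by
  rw [Set.disjoint_left]
  intro w h1 h2
  exact cross h (a := I) (b := -I) (by simp) (by simp) (by simp) (by simp) (h1.2.symm.trans h2.2)

/-- The two sides cover the disc. -/
theorem Sd_cover (h : Chord y) : Sd y I ∪ Sd y (-I) = ball 0 1 \ range y := by
  refine Subset.antisymm (union_subset (Sd_sub y _) (Sd_sub y _)) fun w hw => ?_
  by_contra hc
  set W := connectedComponentIn (ball (0 : ℂ) 1 \ range y) w with hW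
  have hWo : IsOpen W := (off_open y).connectedComponentIn
  have hWs : W ⊆ ball 0 1 \ range y := connectedComponentIn_subset _ _
  have hwW : w ∈ W := mem_connectedComponentIn hw
  have hWc : IsPreconnected W := isPreconnected_connectedComponentIn
  have hr : range y = (fun t : ℝ => y (projIcc 0 1 zero_le_one t)) '' Icc 0 1 := by
    ext z
    constructor
    · rintro ⟨t, rfl⟩
      exact ⟨t, t.2, by simp only [projIcc_val]⟩
    · rintro ⟨t, -, rfl⟩
      exact mem_range_self _
  have hpc : IsPreconnected (range y)ᶜ := by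
    rw [hr]
    refine (isPathConnected_compl_arc (by fun_prop) ?_).isConnected.isPreconnected
    intro s hs t ht he
    have := h.inj he
    rw [projIcc_of_mem _ hs, projIcc_of_mem _ ht] at this
    exact congrArg Subtype.val this
  have hsub : (range y)ᶜ ⊆ W := by
    refine hpc.subset_of_closure_inter_subset hWo ⟨w, hw.2, hwW⟩ ?_
    rintro z ⟨hz, hzy⟩
    have hzc : IsPreconnected (insert z W) :=
      hWc.subset_closure (subset_insert _ _) (insert_subset hz subset_closure)
    have hz1 : z ∈ closedBall (0 : ℂ) 1 :=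
      closure_minimal (fun x hx => ball_subset_closedBall (hWs hx).1) isClosed_closedBall hz
    rcases (mem_cb.1 hz1).lt_or_eq with h1 | h1
    · exact hzc.subset_connectedComponentIn (mem_insert_of_mem _ hwW)
        (insert_subset (show z ∈ ball (0 : ℂ) 1 \ range y from ⟨mem_ob.2 h1, hzy⟩) hWs)
        (mem_insert _ _)
    · exfalso
      have hj : Jn y w z := jn_of hzc (insert_subset ⟨hz1, hzy⟩ fun x hx =>
        ⟨ball_subset_closedBall (hWs hx).1, (hWs hx).2⟩) (mem_insert_of_mem _ hwW)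
        (mem_insert _ _)
      rcases lt_trichotomy z.im 0 with h2 | h2 | h2
      · exact hc (Or.inr ⟨mem_ob.1 hw.1, hj.trans
          (h.jn_arc (s := -1) h1 (by linarith) (by simp) (by simp))⟩)
      · have h3 : z.re ^ 2 = 1 := by
          have := Complex.sq_norm z
          rw [h1, normSq_apply, h2] at this
          nlinarith
        have h4 : z = (z.re : ℂ) := Complex.ext (by simp) (by simpa using h2)
        rcases mul_self_eq_one_iff.1 (show z.re * z.re = 1 by rw [← sq]; exact h3) with h5 | h5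
        · exact hzy ⟨1, by rw [h.one, h4, h5]; simp⟩
        · exact hzy ⟨0, by rw [h.zero, h4, h5]; simp⟩
      · exact hc (Or.inl ⟨mem_ob.1 hw.1, hj.trans
          (h.jn_arc (s := 1) h1 (by linarith) (by simp) (by simp))⟩)
  have h2 : (2 : ℂ) ∉ range y := by
    rintro ⟨t, ht⟩
    have := h.le t
    rw [ht] at this
    norm_num at this
  have h3 := mem_ob.1 (hWs (hsub h2)).1
  norm_num at h3

/-- **Stability** of the sides. -/
theorem jn_ev {ι : Type*} {l : Filter ι} {yn : ι → C(unitInterval, ℂ)} (hl : Tendsto yn l (𝓝 y))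
    {w ζ : ℂ} (h : Jn y w ζ) : ∃ ρ > 0, ∀ᶠ n in l, ∀ w' : ℂ, ‖w'‖ ≤ 1 → dist w' w ≤ ρ →
      Jn (yn n) w' ζ := by
  obtain ⟨c, hc⟩ := h
  have hK : IsCompact (range c) := isCompact_range c.continuous
  obtain ⟨r, hr, hrs⟩ := hK.exists_cthickening_subset_open (closed_range y).isOpen_compl (by
    rintro _ ⟨t, rfl⟩
    exact (hc t).2)
  refine ⟨r / 2, half_pos hr, ?_⟩
  filter_upwards [Metric.tendsto_nhds.1 hl (r / 2) (half_pos hr)] with n hn w' h1 h2
  have far : ∀ z : ℂ, (∃ t, dist z (c t) ≤ r / 2) → z ∉ range (yn n) := by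
    rintro z ⟨t, ht⟩ ⟨s, rfl⟩
    have h3 : dist (yn n s) (y s) < r / 2 := (ContinuousMap.dist_apply_le_dist s).trans_lt hn
    refine hrs (mem_cthickening_of_dist_le (y s) (c t) r _ (mem_range_self t) ?_) (mem_range_self s)
    linarith [dist_triangle_left (y s) (c t) (yn n s)]
  have hw : ‖w‖ ≤ 1 := by
    have := mem_cb.1 (hc 0).1
    rwa [c.source] at this
  have j1 : Jn (yn n) w' w := by
    refine jn_of ((convex_closedBall (0 : ℂ) 1).inter (convex_closedBall w (r / 2))).isPreconnected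
      (fun z hz => ⟨hz.1, far z ⟨0, by rw [c.source]; exact hz.2⟩⟩) ⟨mem_cb.2 h1, h2⟩
      ⟨mem_cb.2 hw, mem_closedBall_self (half_pos hr).le⟩
  exact j1.trans ⟨c, fun t => ⟨(hc t).1, far _ ⟨t, by rw [dist_self]; exact (half_pos hr).le⟩⟩⟩

end Vale.Agent.N153J
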